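import Vale.Agent.P141.Defs

namespace Vale.Agent.P141

open MeasureTheory Filter Finset
open scoped Topology ENNReal NNReal SchwartzMap

/-- A fixed smooth bump, `1` on `[-1/8,1/8]`, supported in `[-1/4,1/4]`. -/
noncomputable def psi : ContDiffBump (0 : ℝ) := ⟨1/8, 1/4, by norm_num, by norm_num⟩

/-- Sum of bumps at the points of a finite set of integers. -/
noncomputable def bumps (A : Finset ℤ) (y : ℝ) : ℝ := ∑ a ∈ A, psi (y - a)

lemma int_eq_of_near {a b : ℤ} {y u v : ℝ} (ha : |y - a| ≤ u) (hb : |y - b| ≤ v)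
    (h : u + v < 1) : a = b := by
  have h1 : |((a - b : ℤ) : ℝ)| < 1 := by
    push_cast
    rw [abs_le] at ha hb
    rw [abs_lt]; constructor <;> linarith
  rw [← Int.cast_abs, ← Int.cast_one, Int.cast_lt, Int.abs_lt_one_iff] at h1
  omega

lemma psi_eq_zero {y : ℝ} (h : 1/4 ≤ |y|) : psi y = 0 := by
  apply psi.zero_of_le_dist
  simpa [Real.dist_eq, psi] using h

lemma bumps_nonneg (A : Finset ℤ) (y : ℝ) : 0 ≤ bumps A y :=
  Finset.sum_nonneg (fun _ _ => psi.nonneg)

lemma bumps_eq_zero (A : Finset ℤ) (y : ℝ) (h : ∀ a ∈ A, 1/4 ≤ |y - a|) : bumps A y = 0 :=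
  Finset.sum_eq_zero (fun a ha => psi_eq_zero (h a ha))

lemma exists_near_of_bumps_ne_zero (A : Finset ℤ) (y : ℝ) (h : bumps A y ≠ 0) :
    ∃ a ∈ A, |y - a| < 1/4 := by
  by_contra hc
  push Not at hc
  exact h (bumps_eq_zero A y hc)

lemma bumps_eq_single (A : Finset ℤ) (y : ℝ) {a : ℤ} (ha : a ∈ A) (h : |y - a| ≤ 1/4) :
    bumps A y = psi (y - a) := by
  refine Finset.sum_eq_single a (fun b _ hb => psi_eq_zero ?_) (fun h' => absurd ha h')
  by_contra hc
  exact hb (int_eq_of_near (not_le.1 hc).le h (by norm_num))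

lemma bumps_le_one (A : Finset ℤ) (y : ℝ) : bumps A y ≤ 1 := by
  by_cases h : bumps A y = 0
  · simp [h]
  · obtain ⟨a, ha, hy⟩ := exists_near_of_bumps_ne_zero A y h
    rw [bumps_eq_single A y ha hy.le]
    exact psi.le_one

lemma bumps_eq_one (A : Finset ℤ) (y : ℝ) {a : ℤ} (ha : a ∈ A) (h : |y - a| ≤ 1/8) :
    bumps A y = 1 := by
  rw [bumps_eq_single A y ha (h.trans (by norm_num))]
  apply psi.one_of_mem_closedBall
  simpa [Metric.mem_closedBall, Real.dist_eq, psi] using h

lemma bumps_contDiff (A : Finset ℤ) : ContDiff ℝ (⊤ : ℕ∞) (bumps A) :=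
  ContDiff.sum (fun a _ => psi.contDiff.comp (contDiff_id.sub contDiff_const))

/-- The closed `δ`-neighbourhood of a finite set of integers. -/
def nbhd (δ : ℝ) (A : Finset ℤ) : Set ℝ := ⋃ a ∈ A, Set.Icc ((a : ℝ) - δ) (a + δ)

lemma measurableSet_nbhd (δ : ℝ) (A : Finset ℤ) : MeasurableSet (nbhd δ A) :=
  A.measurableSet_biUnion (fun _ _ => measurableSet_Icc)

lemma volume_nbhd_le (A : Finset ℤ) : volume (nbhd (1/4) A) ≤ ENNReal.ofReal (A.card : ℝ) := by
  refine le_trans (measure_biUnion_finset_le A _) ?_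
  refine le_trans (Finset.sum_le_card_nsmul _ _ (ENNReal.ofReal 1) (fun a _ => ?_)) ?_
  · rw [Real.volume_Icc]
    exact ENNReal.ofReal_le_ofReal (by linarith)
  · simp [ENNReal.ofReal_natCast]

lemma volume_nbhd (A : Finset ℤ) :
    volume (nbhd (1/32) A) = ENNReal.ofReal ((A.card : ℝ) / 16) := by
  rw [nbhd, measure_biUnion_finset ?_ (fun _ _ => measurableSet_Icc)]
  · have h : ∀ a ∈ A, volume (Set.Icc ((a : ℝ) - 1/32) (a + 1/32)) = ENNReal.ofReal (1/16) := by
      intro a _; rw [Real.volume_Icc]; ring_nf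
    rw [Finset.sum_congr rfl h, Finset.sum_const, nsmul_eq_mul, ← ENNReal.ofReal_natCast,
      ← ENNReal.ofReal_mul (Nat.cast_nonneg _)]
    ring_nf
  · intro a _ b _ hab
    refine Set.disjoint_left.2 (fun y hy hy' => hab ?_)
    refine int_eq_of_near (y := y) (u := 1/32) (v := 1/32) ?_ ?_ (by norm_num)
    · rw [abs_le]; constructor <;> linarith [hy.1, hy.2]
    · rw [abs_le]; constructor <;> linarith [hy'.1, hy'.2]

lemma bumps_hasCompactSupport (A : Finset ℤ) : HasCompactSupport (bumps A) := by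
  refine HasCompactSupport.intro (K := nbhd (1/4) A) ?_ ?_
  · exact A.isCompact_biUnion (fun _ _ => isCompact_Icc)
  · intro y hy
    refine bumps_eq_zero A y (fun a ha => ?_)
    by_contra hc
    rw [not_le, abs_lt] at hc
    exact hy (Set.mem_biUnion ha ⟨by linarith, by linarith⟩)

/-- `bumps A` as a Schwartz function. -/
noncomputable def bumpsS (A : Finset ℤ) : 𝓢(ℝ, ℂ) :=
  HasCompactSupport.toSchwartzMap (f := fun y => (bumps A y : ℂ))
    ((bumps_hasCompactSupport A).comp_left Complex.ofReal_zero)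
    (Complex.ofRealCLM.contDiff.comp (bumps_contDiff A))

lemma bumpsS_apply (A : Finset ℤ) (y : ℝ) : bumpsS A y = (bumps A y : ℂ) := rfl

lemma eLpNorm_bumpsS_le (A : Finset ℤ) (p : ℝ≥0∞) :
    eLpNorm (bumpsS A) p volume ≤ ENNReal.ofReal (A.card : ℝ) ^ (1 / p.toReal) := by
  calc eLpNorm (bumpsS A) p volume
      ≤ eLpNorm ((nbhd (1/4) A).indicator (fun _ => (1 : ℝ))) p volume := by
        refine eLpNorm_mono_real (fun y => ?_)
        rw [bumpsS_apply, Complex.norm_real, Real.norm_eq_abs, abs_of_nonneg (bumps_nonneg A y)]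
        by_cases hy : y ∈ nbhd (1/4) A
        · rw [Set.indicator_of_mem hy]; exact bumps_le_one A y
        · rw [Set.indicator_of_notMem hy]
          refine (bumps_eq_zero A y (fun a ha => ?_)).le
          by_contra hc
          rw [not_le, abs_lt] at hc
          exact hy (Set.mem_biUnion ha ⟨by linarith, by linarith⟩)
    _ ≤ ‖(1:ℝ)‖ₑ * volume (nbhd (1/4) A) ^ (1 / p.toReal) := eLpNorm_indicator_const_le _ _
    _ ≤ _ := by
        rw [enorm_one, one_mul]
        exact ENNReal.rpow_le_rpow (volume_nbhd_le A)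
          (div_nonneg zero_le_one ENNReal.toReal_nonneg)

/-- A lower bound for the trilinear Hilbert transform of three sums of bumps. -/
theorem exists_large_THT (Q m : ℕ) (hQ : 1 ≤ Q) (A B C : Finset ℤ) (Gs : Finset ℤ)
    (Ns : ℤ → Finset ℤ)
    (hsep : ∀ a ∈ A, ∀ b ∈ B, 2 * (Q : ℤ) ≤ a - b ∧ a - b ≤ 15 * (Q : ℤ))
    (hNc : ∀ x ∈ Gs, m ≤ (Ns x).card)
    (hmem : ∀ x ∈ Gs, ∀ n ∈ Ns x, x - n ∈ A ∧ x - 2 * n ∈ B ∧ x - 3 * n ∈ C)
    (r : ℝ) (hr : 0 < r) :
    ∃ g : ℝ → ℂ, IsTHT (bumpsS A) (bumpsS B) (bumpsS C) g ∧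
      ENNReal.ofReal ((m : ℝ) / (256 * Q)) * ENNReal.ofReal ((Gs.card : ℝ) / 16) ^ (1 / r)
        ≤ eLpNorm g (ENNReal.ofReal r) volume := by
  classical
  set F : ℝ → ℝ → ℝ := fun x t => bumps A (x - t) * bumps B (x - 2 * t) * bumps C (x - 3 * t) / t
    with hF
  have hQr : (1:ℝ) ≤ Q := by exact_mod_cast hQ
  have hsupp : ∀ x t, F x t ≠ 0 → (Q : ℝ) ≤ t ∧ t ≤ 16 * (Q : ℝ) := by
    intro x t h
    simp only [hF, ne_eq, div_eq_zero_iff, mul_eq_zero, not_or] at h
    obtain ⟨a, ha, ha'⟩ := exists_near_of_bumps_ne_zero A _ h.1.1.1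
    obtain ⟨b, hb, hb'⟩ := exists_near_of_bumps_ne_zero B _ h.1.1.2
    obtain ⟨h1, h2⟩ := hsep a ha b hb
    have h1' : 2 * (Q : ℝ) ≤ (a : ℝ) - b := by exact_mod_cast h1
    have h2' : (a : ℝ) - b ≤ 15 * (Q : ℝ) := by exact_mod_cast h2
    rw [abs_lt] at ha' hb'
    constructor <;> linarith
  have hF0 : ∀ x t, 0 ≤ F x t := by
    intro x t
    by_cases h : F x t = 0
    · simp [h]
    · have := (hsupp x t h).1
      exact div_nonneg (mul_nonneg (mul_nonneg (bumps_nonneg _ _) (bumps_nonneg _ _))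
        (bumps_nonneg _ _)) (by linarith)
  have hFle : ∀ x t, F x t ≤ (Set.Icc (Q : ℝ) (16 * Q)).indicator (fun _ => 1 / (Q : ℝ)) t := by
    intro x t
    by_cases h : F x t = 0
    · rw [h]; exact Set.indicator_nonneg (fun _ _ => by positivity) t
    · rw [Set.indicator_of_mem (show t ∈ Set.Icc (Q : ℝ) (16 * Q) from hsupp x t h)]
      refine div_le_div₀ zero_le_one ?_ (by linarith) (hsupp x t h).1
      exact mul_le_one₀ (mul_le_one₀ (bumps_le_one _ _) (bumps_nonneg _ _) (bumps_le_one _ _))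
        (bumps_nonneg _ _) (bumps_le_one _ _)
  have hint : ∀ x, Integrable (F x) := by
    intro x
    have hcA := (bumps_contDiff A).continuous
    have hcB := (bumps_contDiff B).continuous
    have hcC := (bumps_contDiff C).continuous
    refine Integrable.mono' (g := (Set.Icc (Q : ℝ) (16 * Q)).indicator (fun _ => 1 / (Q : ℝ))) ?_ ?_ ?_
    · exact (integrableOn_const (by simp [Real.volume_Icc])).integrable_indicator measurableSet_Icc
    · refine Measurable.aestronglyMeasurable ?_
      exact Measurable.div (Continuous.measurable (by fun_prop)) measurable_id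
    · exact Eventually.of_forall (fun t => by
        rw [Real.norm_eq_abs, abs_of_nonneg (hF0 x t)]; exact hFle x t)
  refine ⟨fun x => ((∫ t, F x t : ℝ) : ℂ), ?_, ?_⟩
  · intro x
    refine tendsto_nhds_of_eventually_eq ?_
    have h1 : ∀ᶠ ε : ℝ in 𝓝[>] (0:ℝ), ε < (Q : ℝ) :=
      nhdsWithin_le_nhds (Iio_mem_nhds (by linarith))
    have h2 : ∀ᶠ R in (atTop : Filter ℝ), 16 * (Q : ℝ) < R := eventually_gt_atTop _
    filter_upwards [h1.prod_mk h2] with q hq
    have e : ∀ t : ℝ, bumpsS A (x - t) * bumpsS B (x - 2 * t) * bumpsS C (x - 3 * t) / (t : ℂ)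
        = ((F x t : ℝ) : ℂ) := fun t => by simp [hF, bumpsS_apply]
    rw [truncTHT]
    simp only [e]
    rw [integral_complex_ofReal, setIntegral_eq_integral_of_forall_compl_eq_zero]
    intro t ht
    by_contra h
    obtain ⟨h3, h4⟩ := hsupp x t h
    apply ht
    have : |t| = t := abs_of_nonneg (by linarith)
    exact ⟨by rw [this]; linarith [hq.1], by rw [this]; linarith [hq.2]⟩
  · set c : ℝ := (m : ℝ) / (256 * Q) with hc
    have hc0 : 0 ≤ c := by positivity
    have hlow : ∀ x ∈ nbhd (1/32) Gs, c ≤ ∫ t, F x t := by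
      intro x hx
      obtain ⟨x0, hx0, hx⟩ := Set.mem_iUnion₂.1 hx
      set S := nbhd (1/32) (Ns x0)
      have hS : IntegrableOn (fun _ : ℝ => 1 / (16 * (Q : ℝ))) S :=
        integrableOn_const (by rw [volume_nbhd]; exact ENNReal.ofReal_ne_top)
      calc c ≤ ∫ t, S.indicator (fun _ => 1 / (16 * (Q : ℝ))) t := by
            rw [integral_indicator_const _ (measurableSet_nbhd _ _), measureReal_def, volume_nbhd,
              ENNReal.toReal_ofReal (by positivity), smul_eq_mul, hc]
            have : (m : ℝ) ≤ (Ns x0).card := by exact_mod_cast hNc x0 hx0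
            rw [show ((Ns x0).card : ℝ) / 16 * (1 / (16 * (Q : ℝ))) = (Ns x0).card / (256 * Q) by
              rw [div_mul_div_comm, mul_one]; ring_nf]
            gcongr
        _ ≤ ∫ t, F x t := by
            refine integral_mono (hS.integrable_indicator (measurableSet_nbhd _ _)) (hint x) (fun t => ?_)
            by_cases ht : t ∈ S
            · rw [Set.indicator_of_mem ht]
              obtain ⟨n, hn, ht⟩ := Set.mem_iUnion₂.1 ht
              obtain ⟨ha, hb, hc'⟩ := hmem x0 hx0 n hn
              obtain ⟨hx1, hx2⟩ := hx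
              obtain ⟨ht1, ht2⟩ := ht
              have e1 : bumps A (x - t) = 1 := bumps_eq_one A _ ha (by
                rw [abs_le]; push_cast; constructor <;> linarith)
              have e2 : bumps B (x - 2 * t) = 1 := bumps_eq_one B _ hb (by
                rw [abs_le]; push_cast; constructor <;> linarith)
              have e3 : bumps C (x - 3 * t) = 1 := bumps_eq_one C _ hc' (by
                rw [abs_le]; push_cast; constructor <;> linarith)
              have hne : F x t = 1 / t := by simp [hF, e1, e2, e3]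
              rw [hne]
              have hn' : (n : ℝ) ≥ 1 := by
                obtain ⟨h1, -⟩ := hsep _ ha _ hb
                have : (1:ℤ) ≤ n := by omega
                exact_mod_cast this
              have htpos : 0 < t := by linarith
              have : F x t ≠ 0 := by rw [hne]; positivity
              exact one_div_le_one_div_of_le htpos (hsupp x t this).2
            · rw [Set.indicator_of_notMem ht]; exact hF0 x t
    calc ENNReal.ofReal c * ENNReal.ofReal ((Gs.card : ℝ) / 16) ^ (1 / r)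
        = eLpNorm ((nbhd (1/32) Gs).indicator (fun _ => c)) (ENNReal.ofReal r) volume := by
          rw [eLpNorm_indicator_const (measurableSet_nbhd _ _) (by simpa using hr)
            ENNReal.ofReal_ne_top, volume_nbhd, ENNReal.toReal_ofReal hr.le,
            Real.enorm_eq_ofReal hc0]
      _ ≤ _ := by
          refine eLpNorm_mono (fun x => ?_)
          rw [Complex.norm_real]
          by_cases hx : x ∈ nbhd (1/32) Gs
          · rw [Set.indicator_of_mem hx, Real.norm_eq_abs, Real.norm_eq_abs, abs_of_nonneg hc0]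
            exact (hlow x hx).trans (le_abs_self _)
          · rw [Set.indicator_of_notMem hx]; simp

end Vale.Agent.P141
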