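import Vale.Agent.P141.Main

namespace Vale.Agent.P141

open Finset

/-- An explicit configuration: triples `(x, n, weight)` found by numerical optimisation. -/
def balancedData : List (ℤ × ℤ × ℕ) :=
  [ (-17, -11, 1), (-16, -10, 2), (-15, -11, 2), (-15, -9, 1), (-14, -10, 5),
    (-13, -9, 9), (-12, -10, 3), (-12, -8, 9), (-11, -9, 13), (-11, -7, 5),
    (-10, -8, 29), (-10, -6, 2), (-9, -9, 3), (-9, -7, 40), (-8, -8, 19),
    (-8, -6, 31), (-7, -7, 56), (-7, -5, 14), (-6, -8, 2), (-6, -6, 97),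
    (-6, -4, 4), (-5, -7, 15), (-5, -5, 101), (-4, -6, 63), (-4, -4, 60),
    (-3, -7, 1), (-3, -5, 141), (-3, -3, 21), (-2, -6, 7), (-2, -4, 187),
    (-2, -2, 5), (-1, -5, 39), (-1, -3, 150), (0, -4, 121), (0, -2, 68),
    (1, -5, 2), (1, -3, 206), (1, -1, 17), (2, -4, 14), (2, -2, 208),
    (2, 0, 3), (3, -3, 58), (3, -1, 130), (4, -2, 134), (4, 0, 44),
    (5, -3, 3), (5, -1, 175), (5, 1, 8), (6, -2, 15), (6, 0, 138),
    (7, -1, 49), (7, 1, 65), (8, 0, 87), (8, 2, 17), (9, -1, 2),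
    (9, 1, 87), (9, 3, 2), (10, 0, 10), (10, 2, 53), (11, 1, 24),
    (11, 3, 18), (12, 2, 32), (12, 4, 4), (13, 1, 1), (13, 3, 25),
    (14, 2, 4), (14, 4, 11), (15, 3, 7), (15, 5, 3), (16, 4, 7),
    (17, 5, 4), (18, 4, 1), (18, 6, 1), (19, 5, 1), (20, 6, 1) ]

/-- Product configuration of two weighted progressions for the projections `i`, `j` with
`j - i = m`; `a = m * gA * u` and `b = m * gB * w`. -/
def productData (i m gA gB : ℤ) (p : List ℕ) : List (ℤ × ℤ × ℕ) :=
  (List.range p.length).flatMap (fun u : ℕ => (List.range p.length).map (fun w : ℕ =>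
    (m * gA * ((u : ℕ) : ℤ) + i * (gA * ((u : ℕ) : ℤ) - gB * ((w : ℕ) : ℤ)),
      gA * ((u : ℕ) : ℤ) - gB * ((w : ℕ) : ℤ), (p.getD u 0 * p.getD w 0 : ℕ))))

/-- The point of the `i`th entry of a list of data. -/
def pt (d : List (ℤ × ℤ × ℕ)) (i : Fin d.length) : ℤ × ℤ :=
  ((d.getD i (0, 0, 0)).1, (d.getD i (0, 0, 0)).2.1)

/-- The weight of the `i`th entry of a list of data. -/
def wt (d : List (ℤ × ℤ × ℕ)) (i : Fin d.length) : ℕ := (d.getD i (0, 0, 0)).2.2

/-- Total weight. -/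
def total (d : List (ℤ × ℤ × ℕ)) : ℕ := ∑ i, wt d i

/-- The weighted configuration as a finite sample space. -/
abbrev Smp (d : List (ℤ × ℤ × ℕ)) : Type := Σ i : Fin d.length, Fin (wt d i)

/-- The point attached to a sample. -/
def cfg (d : List (ℤ × ℤ × ℕ)) (s : Smp d) : ℤ × ℤ := pt d s.1

/-- `∏ cnt ^ weight` for a projection of the configuration. -/
def lprod {β : Type*} [DecidableEq β] (d : List (ℤ × ℤ × ℕ)) (g : ℤ × ℤ → β) : ℕ :=
  ∏ i, (∑ j, if g (pt d j) = g (pt d i) then wt d j else 0) ^ wt d i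

lemma cnt_cfg {β : Type*} [DecidableEq β] (d : List (ℤ × ℤ × ℕ)) (g : ℤ × ℤ → β) (z : β) :
    cnt (g ∘ cfg d) z = ∑ j, if g (pt d j) = z then wt d j else 0 := by
  rw [cnt, Finset.card_filter, ← Finset.univ_sigma_univ, Finset.sum_sigma]
  refine Finset.sum_congr rfl (fun j _ => ?_)
  by_cases h : g (pt d j) = z
  · rw [if_pos h, Finset.sum_congr rfl (fun t _ => if_pos (show (g ∘ cfg d) ⟨j, t⟩ = z from h))]
    simp
  · rw [if_neg h, Finset.sum_congr rfl (fun t _ => if_neg (show ¬ (g ∘ cfg d) ⟨j, t⟩ = z from h))]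
    simp

lemma card_smp (d : List (ℤ × ℤ × ℕ)) : Fintype.card (Smp d) = total d := by
  simp [Smp, total]

lemma lprod_eq {β : Type*} [DecidableEq β] (d : List (ℤ × ℤ × ℕ)) (g : ℤ × ℤ → β) :
    lprod d g = ∏ s : Smp d, cnt (g ∘ cfg d) ((g ∘ cfg d) s) := by
  rw [lprod, ← Finset.univ_sigma_univ, Finset.prod_sigma]
  refine Finset.prod_congr rfl (fun i _ => ?_)
  simp [cnt_cfg, cfg]

lemma lprod_pos {β : Type*} [DecidableEq β] (d : List (ℤ × ℤ × ℕ)) (g : ℤ × ℤ → β) :
    0 < lprod d g := by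
  rw [lprod_eq]; exact Finset.prod_pos (fun s _ => cnt_pos _ s)

lemma ent_cfg {β : Type*} [DecidableEq β] (d : List (ℤ × ℤ × ℕ)) (hd : 0 < total d)
    (g : ℤ × ℤ → β) :
    (total d : ℝ) * ent (g ∘ cfg d) = total d * Real.log (total d) - Real.log (lprod d g : ℕ) := by
  haveI : Nonempty (Smp d) := Fintype.card_pos_iff.1 (by rw [card_smp]; exact hd)
  rw [lprod_eq, Nat.cast_prod,
    Real.log_prod (fun s _ => by exact_mod_cast (cnt_pos (g ∘ cfg d) s).ne')]
  have hne : (total d : ℝ) ≠ 0 := by exact_mod_cast hd.ne'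
  rw [ent, card_smp, mul_div_cancel₀ _ hne]
  simp only [lik, Finset.sum_sub_distrib, Finset.sum_const, Finset.card_univ, nsmul_eq_mul,
    card_smp]

lemma log_cert (a b c M k l m n : ℕ) (ha : 0 < a) (hb : 0 < b) (hc : 0 < c) (hM : 0 < M)
    (h : a ^ k * M ^ l * c ^ m ≤ b ^ k * a ^ n) :
    (k : ℝ) * Real.log a + l * Real.log M + m * Real.log c ≤ k * Real.log b + n * Real.log a := by
  have h0 : ((a : ℝ) ^ k * (M : ℝ) ^ l * (c : ℝ) ^ m) ≤ (b : ℝ) ^ k * (a : ℝ) ^ n := by
    exact_mod_cast h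
  have ha' : (0 : ℝ) < a := by exact_mod_cast ha
  have hb' : (0 : ℝ) < b := by exact_mod_cast hb
  have hc' : (0 : ℝ) < c := by exact_mod_cast hc
  have hM' : (0 : ℝ) < M := by exact_mod_cast hM
  have h' := Real.log_le_log (by positivity) h0
  rw [Real.log_mul (by positivity) (by positivity), Real.log_mul (by positivity) (by positivity),
    Real.log_mul (by positivity) (by positivity)] at h'
  simpa only [Real.log_pow] using h'

lemma log_cert_strict (a c M l : ℕ) (ha : 0 < a) (hc : 0 < c) (hM : 0 < M)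
    (h : a ^ 2 < M ^ l * c) :
    2 * Real.log a < (l : ℝ) * Real.log M + Real.log c := by
  have h0 : (a : ℝ) ^ 2 < (M : ℝ) ^ l * c := by exact_mod_cast h
  have ha' : (0 : ℝ) < a := by exact_mod_cast ha
  have hc' : (0 : ℝ) < c := by exact_mod_cast hc
  have hM' : (0 : ℝ) < M := by exact_mod_cast hM
  have h' := Real.log_lt_log (by positivity) h0
  rw [Real.log_mul (by positivity) hc'.ne', Real.log_pow, Real.log_pow, Nat.cast_ofNat] at h'
  exact h'

/-- Configuration with `2 H(x) - H(x,n)` at most `k / a` times each `H(x) - H(x - i n)`. -/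
theorem slack_of_cert (d : List (ℤ × ℤ × ℕ)) (hd : 0 < total d) (a k : ℕ)
    (h0 : lprod d Prod.fst ^ 2 < total d ^ total d * lprod d id)
    (i : ℤ) (h : lprod d Prod.fst ^ k * total d ^ (a * total d) * lprod d id ^ a
      ≤ lprod d (proj i) ^ k * lprod d Prod.fst ^ (2 * a)) :
    0 < 2 * ent (Prod.fst ∘ cfg d) - ent (cfg d) ∧
    (a : ℝ) * (2 * ent (Prod.fst ∘ cfg d) - ent (cfg d))
      ≤ (k : ℝ) * (ent (Prod.fst ∘ cfg d) - ent (proj i ∘ cfg d)) := by
  have hM : (0 : ℝ) < (total d : ℝ) := by exact_mod_cast hd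
  have hx := ent_cfg d hd (Prod.fst (α := ℤ) (β := ℤ))
  have he : (total d : ℝ) * ent (cfg d)
      = total d * Real.log (total d) - Real.log (lprod d id : ℕ) := ent_cfg d hd id
  have hi := ent_cfg d hd (proj i)
  have l0 := log_cert_strict _ _ _ _ (lprod_pos d _) (lprod_pos d _) hd h0
  have l1 := log_cert _ _ _ _ _ _ _ _ (lprod_pos d _) (lprod_pos d _) (lprod_pos d _) hd h
  constructor
  · refine pos_of_mul_pos_right ?_ hM.le
    rw [mul_sub, mul_left_comm, hx, he]
    linarith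
  · refine le_of_mul_le_mul_left ?_ hM
    push_cast at l1
    calc (total d : ℝ) * ((a : ℝ) * (2 * ent (Prod.fst ∘ cfg d) - ent (cfg d)))
        = (a : ℝ) * (2 * ((total d : ℝ) * ent (Prod.fst ∘ cfg d))
            - (total d : ℝ) * ent (cfg d)) := by ring
      _ ≤ (k : ℝ) * ((total d : ℝ) * ent (Prod.fst ∘ cfg d)
            - (total d : ℝ) * ent (proj i ∘ cfg d)) := by rw [hx, he, hi]; linarith
      _ = _ := by ring

/-- For a symmetric product configuration on the projections `i`, `j`: equal gains for `i` and `j`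
adding up to the whole slack, and a fraction `f / g` of that gain for the third projection `l`. -/
theorem product_cert (d : List (ℤ × ℤ × ℕ)) (hd : 0 < total d) (f g : ℕ)
    (h0 : lprod d Prod.fst ^ 2 < total d ^ total d * lprod d id)
    (i j l : ℤ) (hij : lprod d (proj i) = lprod d (proj j))
    (hid : total d ^ total d * lprod d id = lprod d (proj i) * lprod d (proj j))
    (hl : lprod d Prod.fst ^ g * lprod d (proj i) ^ f ≤ lprod d (proj l) ^ g * lprod d Prod.fst ^ f) :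
    ∃ δ : ℝ, 0 < δ ∧ ent (Prod.fst ∘ cfg d) - ent (proj i ∘ cfg d) = δ ∧
      ent (Prod.fst ∘ cfg d) - ent (proj j ∘ cfg d) = δ ∧
      2 * ent (Prod.fst ∘ cfg d) - ent (cfg d) = 2 * δ ∧
      (f : ℝ) * δ ≤ (g : ℝ) * (ent (Prod.fst ∘ cfg d) - ent (proj l ∘ cfg d)) := by
  have hM : (0 : ℝ) < (total d : ℝ) := by exact_mod_cast hd
  have hx := ent_cfg d hd (Prod.fst (α := ℤ) (β := ℤ))
  have he : (total d : ℝ) * ent (cfg d)
      = total d * Real.log (total d) - Real.log (lprod d id : ℕ) := ent_cfg d hd id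
  have hi := ent_cfg d hd (proj i)
  have hj := ent_cfg d hd (proj j)
  have hll := ent_cfg d hd (proj l)
  have p0 := lprod_pos d (Prod.fst (α := ℤ) (β := ℤ))
  have pe := lprod_pos d (id (α := ℤ × ℤ))
  have pi := lprod_pos d (proj i)
  have pl := lprod_pos d (proj l)
  have l0 := log_cert_strict _ _ _ _ p0 pe hd h0
  have l1 := log_cert _ _ _ 1 g 0 f f p0 pl pi Nat.one_pos (by simpa using hl)
  rw [← hij] at hj hid
  have l2 : (total d : ℝ) * Real.log (total d) + Real.log (lprod d id : ℕ)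
      = 2 * Real.log (lprod d (proj i) : ℕ) := by
    have e := congrArg (fun n : ℕ => Real.log (n : ℝ)) hid
    have pi' : (lprod d (proj i) : ℝ) ≠ 0 := by exact_mod_cast pi.ne'
    have pe' : (lprod d id : ℝ) ≠ 0 := by exact_mod_cast pe.ne'
    simp only [Nat.cast_mul, Nat.cast_pow] at e
    rw [Real.log_mul (pow_ne_zero _ hM.ne') pe', Real.log_mul pi' pi', Real.log_pow] at e
    linarith
  set δ := ent (Prod.fst ∘ cfg d) - ent (proj i ∘ cfg d) with hδ
  have hMδ : (total d : ℝ) * δ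
      = Real.log (lprod d (proj i) : ℕ) - Real.log (lprod d Prod.fst : ℕ) := by
    rw [hδ, mul_sub, hx, hi]; ring
  refine ⟨δ, ?_, rfl, ?_, ?_, ?_⟩
  · refine pos_of_mul_pos_right ?_ hM.le
    linarith
  · refine mul_left_cancel₀ hM.ne' ?_
    rw [mul_sub, hx, hj, hMδ]; ring
  · refine mul_left_cancel₀ hM.ne' ?_
    rw [mul_sub, mul_left_comm, hx, he, mul_left_comm, hMδ]
    linarith
  · refine le_of_mul_le_mul_left ?_ hM
    rw [mul_left_comm, hMδ, mul_left_comm, mul_sub (total d : ℝ), hx, hll]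
    push_cast at l1
    linarith

end Vale.Agent.P141
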