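import Vale.Agent.P141.Typical

namespace Vale.Agent.P141

open Finset

/-- The `i`th projection `(x, n) ↦ x - i n`. -/
def proj (i : ℤ) (z : ℤ × ℤ) : ℤ := z.1 - i * z.2

theorem exists_combinatorial {ι : Type*} [Fintype ι] [Nonempty ι] (e : ι → ℤ × ℤ) (ε : ℝ)
    (hε : 0 < ε) :
    ∃ D : ℤ, ∃ K0 : ℕ, ∀ K : ℕ, K0 ≤ K →
      ∃ (X : Finset (Fin K → ℤ)) (N : (Fin K → ℤ) → Finset (Fin K → ℤ))
        (A : ℤ → Finset (Fin K → ℤ)),
        (∀ x ∈ X, ∀ j, |x j| ≤ D) ∧ (∀ x ∈ X, ∀ n ∈ N x, ∀ j, |n j| ≤ D) ∧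
        (X.card : ℝ) ≤ Real.exp (K * (ent (Prod.fst ∘ e) + ε)) ∧
        Real.exp (K * (ent (Prod.fst ∘ e) - 3 * ε)) / 4 ≤ X.card ∧
        (∀ x ∈ X, ((N x).card : ℝ) ≤ Real.exp (K * (ent e - ent (Prod.fst ∘ e) + 2 * ε))) ∧
        (∀ x ∈ X, Real.exp (K * (ent e - ent (Prod.fst ∘ e) - 2 * ε)) / 4 ≤ (N x).card) ∧
        (∀ i ∈ ({1, 2, 3} : Finset ℤ),
          ((A i).card : ℝ) ≤ Real.exp (K * (ent (proj i ∘ e) + ε))) ∧
        (∀ i : ℤ, ∀ x ∈ X, ∀ n ∈ N x, x - i • n ∈ A i) := by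
  classical
  obtain ⟨D, hD⟩ : ∃ D : ℤ, ∀ i, |(e i).1| ≤ D ∧ |(e i).2| ≤ D :=
    ⟨∑ i, (|(e i).1| + |(e i).2|), fun i => by
      have := Finset.single_le_sum (f := fun i => |(e i).1| + |(e i).2|)
        (fun i _ => by positivity) (Finset.mem_univ i)
      constructor <;> nlinarith [abs_nonneg (e i).1, abs_nonneg (e i).2]⟩
  -- variance of all five statistics
  set L : Fin 5 → ι → ℝ := ![lik e, lik (Prod.fst ∘ e), lik (proj 1 ∘ e), lik (proj 2 ∘ e),
    lik (proj 3 ∘ e)] with hL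
  set μ : Fin 5 → ℝ := fun s => (∑ i, L s i) / Fintype.card ι with hμ
  set V : ℝ := ∑ s, ∑ i, (L s i - μ s) ^ 2
  obtain ⟨K0, hK0⟩ := exists_nat_gt (10 * V / (ε ^ 2 * Fintype.card ι))
  have hMι : (0:ℝ) < Fintype.card ι := by exact_mod_cast Fintype.card_pos
  refine ⟨D, K0 + 1, fun K hK => ?_⟩
  have hKpos : (0:ℝ) < K := by exact_mod_cast (show 0 < K by omega)
  set MK : ℝ := (Fintype.card ι : ℝ) ^ K with hMK
  have hMK0 : 0 < MK := by positivity
  set Bad : Fin 5 → Finset (Fin K → ι) := fun s =>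
    univ.filter (fun w => ε * K < |(∑ j, L s (w j)) - K * μ s|)
  have hbad : ∀ s, ((Bad s).card : ℝ) ≤ MK / 10 := by
    intro s
    have h := atypical_card (L s) K ε hε (μ s) (by simp only [hμ]; field_simp)
    have h2 : ∑ i, (L s i - μ s) ^ 2 ≤ V :=
      Finset.single_le_sum (f := fun s => ∑ i, (L s i - μ s) ^ 2)
        (fun s _ => Finset.sum_nonneg (fun i _ => sq_nonneg _)) (Finset.mem_univ s)
    have h3 : 10 * V ≤ ε ^ 2 * K * Fintype.card ι := by
      rw [div_lt_iff₀ (by positivity)] at hK0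
      have : (K0 : ℝ) ≤ K := by exact_mod_cast (show K0 ≤ K by omega)
      have := mul_le_mul_of_nonneg_right this (show 0 ≤ ε ^ 2 * (Fintype.card ι : ℝ) by positivity)
      nlinarith
    have hpos : 0 < ε ^ 2 * K * (Fintype.card ι : ℝ) := by positivity
    have h4 := mul_le_mul_of_nonneg_left h2 hMK0.le
    have h5 := mul_le_mul_of_nonneg_left h3 hMK0.le
    refine le_of_mul_le_mul_right ?_ hpos
    simp only [Bad]
    nlinarith
  set G := univ.filter (fun w : Fin K → ι => ∀ s, |(∑ j, L s (w j)) - K * μ s| ≤ ε * K) with hG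
  have hGcard : MK / 2 ≤ G.card := by
    have h1 : (univ : Finset (Fin K → ι)).card ≤ G.card + ∑ s, (Bad s).card := by
      refine le_trans (Finset.card_le_card (t := G ∪ univ.biUnion Bad) ?_) ?_
      · intro w _
        by_cases h : ∀ s, |(∑ j, L s (w j)) - K * μ s| ≤ ε * K
        · exact Finset.mem_union_left _ (by simp [hG, h])
        · push Not at h
          obtain ⟨s, hs⟩ := h
          exact Finset.mem_union_right _
            (Finset.mem_biUnion.2 ⟨s, Finset.mem_univ s, by simp [Bad, hs]⟩)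
      · exact le_trans (Finset.card_union_le _ _) (by gcongr; exact Finset.card_biUnion_le)
    have h2 : MK ≤ G.card + ∑ s, ((Bad s).card : ℝ) := by
      have : (((univ : Finset (Fin K → ι)).card : ℕ) : ℝ) ≤ ((G.card + ∑ s, (Bad s).card : ℕ) : ℝ) := by
        exact_mod_cast h1
      simpa [MK, Fintype.card_fun] using this
    have h3 : ∑ s, ((Bad s).card : ℝ) ≤ ∑ _s : Fin 5, MK / 10 := Finset.sum_le_sum (fun s _ => hbad s)
    simp at h3
    linarith
  have hGs : ∀ s, ∀ w ∈ G,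
      K * (μ s - ε) ≤ ∑ j, L s (w j) ∧ ∑ j, L s (w j) ≤ K * (μ s + ε) := by
    intro s w hw
    have := abs_le.1 ((Finset.mem_filter.1 hw).2 s)
    constructor <;> linarith
  have hE := hGs 0
  have hX := hGs 1
  simp only [hμ, hL, Matrix.cons_val_zero, Matrix.cons_val_one] at hE hX
  set E' := G.image (fun w j => e (w j)) with hE'
  set fX : (Fin K → ℤ × ℤ) → (Fin K → ℤ) := fun z j => (z j).1 with hfX
  set X0 := G.image (fun w j => (Prod.fst ∘ e) (w j)) with hX0
  have hX0card : (X0.card : ℝ) ≤ Real.exp (K * (ent (Prod.fst ∘ e) + ε)) :=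
    image_card_le _ G _ (fun w hw => (hX w hw).2)
  have hE'card : Real.exp (K * (ent e - ε)) / 2 ≤ E'.card := by
    have h := card_le_image e G _ (fun w hw => (hE w hw).1)
    rw [← hMK, ← hE'] at h
    have h3 : 1 / 2 ≤ (E'.card : ℝ) * Real.exp (-(K * (ent e - ε))) := by
      refine le_of_mul_le_mul_left ?_ hMK0
      simp only [ent] at h ⊢
      linarith
    rw [Real.exp_neg, ← div_eq_mul_inv, le_div_iff₀ (Real.exp_pos _)] at h3
    linarith
  have hfib : ∀ x, ((E'.filter (fun z => fX z = x)).card : ℝ)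
      ≤ Real.exp (K * (ent e - ent (Prod.fst ∘ e) + 2 * ε)) := by
    intro x
    refine le_trans (sub_fiber_card_le e Prod.fst G _ _ (fun w hw => (hE w hw).2)
      (fun w hw => (hX w hw).1) x) (le_of_eq ?_)
    simp only [ent]
    ring_nf
  set Φ := fun x => E'.filter (fun z => fX z = x)
  set R0 : ℝ := Real.exp (K * (ent e - ent (Prod.fst ∘ e) - 2 * ε)) / 4 with hR0
  set X := X0.filter (fun x => R0 ≤ ((Φ x).card : ℝ))
  refine ⟨X, fun x => (Φ x).image (fun z j => (z j).2),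
    fun i => G.image (fun w j => (proj i ∘ e) (w j)), ?_, ?_, ?_, ?_, ?_, ?_, ?_, ?_⟩
  · intro x hx j
    obtain ⟨w, -, rfl⟩ := Finset.mem_image.1 (Finset.mem_filter.1 hx).1
    exact (hD _).1
  · intro x _ n hn j
    obtain ⟨z, hz, rfl⟩ := Finset.mem_image.1 hn
    obtain ⟨w, -, rfl⟩ := Finset.mem_image.1 (Finset.mem_filter.1 hz).1
    exact (hD _).2
  · exact le_trans (by exact_mod_cast Finset.card_le_card (Finset.filter_subset _ _)) hX0card
  · have htot : E'.card = ∑ x ∈ X0, (Φ x).card := by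
      refine Finset.card_eq_sum_card_fiberwise (fun z hz => ?_)
      obtain ⟨w, hw, rfl⟩ := Finset.mem_image.1 hz
      exact Finset.mem_image.2 ⟨w, hw, rfl⟩
    have h1 : (E'.card : ℝ) ≤ (X0.card : ℝ) * R0
        + (X.card : ℝ) * Real.exp (K * (ent e - ent (Prod.fst ∘ e) + 2 * ε)) := by
      rw [htot, ← Finset.sum_filter_not_add_sum_filter X0 (fun x => R0 ≤ ((Φ x).card : ℝ))]
      push_cast
      gcongr
      · refine le_trans (Finset.sum_le_card_nsmul _ _ R0 (fun x hx => ?_)) ?_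
        · exact (not_le.1 (Finset.mem_filter.1 hx).2).le
        · rw [nsmul_eq_mul]
          gcongr
          exact Finset.filter_subset _ _
      · rw [← nsmul_eq_mul]
        exact Finset.sum_le_card_nsmul _ _ _ (fun x _ => hfib x)
    have h2 : (X0.card : ℝ) * R0 ≤ Real.exp (K * (ent e - ε)) / 4 := by
      refine le_trans (mul_le_mul_of_nonneg_right hX0card (by positivity)) (le_of_eq ?_)
      rw [hR0, mul_div_assoc', ← Real.exp_add]
      ring_nf
    have h3 : Real.exp (K * (ent (Prod.fst ∘ e) - 3 * ε))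
        * Real.exp (K * (ent e - ent (Prod.fst ∘ e) + 2 * ε)) = Real.exp (K * (ent e - ε)) := by
      rw [← Real.exp_add]; ring_nf
    refine le_of_mul_le_mul_right ?_ (Real.exp_pos (K * (ent e - ent (Prod.fst ∘ e) + 2 * ε)))
    rw [div_mul_eq_mul_div, h3]
    linarith
  · intro x _
    exact le_trans (by exact_mod_cast Finset.card_image_le) (hfib x)
  · intro x hx
    rw [Finset.card_image_of_injOn]
    · exact (Finset.mem_filter.1 hx).2
    · intro a ha b hb hab
      funext j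
      exact Prod.ext ((congrFun (Finset.mem_filter.1 ha).2 j).trans
        (congrFun (Finset.mem_filter.1 hb).2 j).symm) (congrFun hab j)
  · intro i hi
    refine image_card_le _ G _ (fun w hw => ?_)
    simp only [Finset.mem_insert, Finset.mem_singleton] at hi
    rcases hi with rfl | rfl | rfl
    · simpa [hL, hμ, ent] using (hGs 2 w hw).2
    · simpa [hL, hμ, ent] using (hGs 3 w hw).2
    · simpa [hL, hμ, ent] using (hGs 4 w hw).2
  · intro i x _ n hn
    obtain ⟨z, hz, rfl⟩ := Finset.mem_image.1 hn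
    obtain ⟨hz1, rfl⟩ := Finset.mem_filter.1 hz
    obtain ⟨w, hw, rfl⟩ := Finset.mem_image.1 hz1
    exact Finset.mem_image.2 ⟨w, hw, funext (fun j => by simp [proj, hfX])⟩

end Vale.Agent.P141
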