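import Mathlib

namespace Vale.Agent.P141

open MeasureTheory Filter
open scoped Topology ENNReal NNReal SchwartzMap

/-- The truncation `T_{ε,R}(f₁,f₂,f₃)(x) = ∫_{ε<|t|<R} f₁(x-t) f₂(x-2t) f₃(x-3t) dt/t`. -/
noncomputable def truncTHT (ε R : ℝ) (f₁ f₂ f₃ : ℝ → ℂ) (x : ℝ) : ℂ :=
  ∫ t in {t : ℝ | ε < |t| ∧ |t| < R}, f₁ (x - t) * f₂ (x - 2 * t) * f₃ (x - 3 * t) / (t : ℂ)

/-- `g` is the principal value `lim_{ε→0+, R→∞} T_{ε,R}(f₁,f₂,f₃)` at every point. -/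
def IsTHT (f₁ f₂ f₃ : ℝ → ℂ) (g : ℝ → ℂ) : Prop :=
  ∀ x : ℝ, Tendsto (fun q : ℝ × ℝ => truncTHT q.1 q.2 f₁ f₂ f₃ x)
    (𝓝[>] 0 ×ˢ atTop) (𝓝 (g x))

/-- The trilinear Hilbert transform is bounded at `(p₁,p₂,p₃,r)`: there is a finite constant `C`
with `‖T(f₁,f₂,f₃)‖_r ≤ C ‖f₁‖_{p₁} ‖f₂‖_{p₂} ‖f₃‖_{p₃}` for all Schwartz functions. -/
def BoundedAt (p₁ p₂ p₃ r : ℝ≥0∞) : Prop :=
  ∃ C : ℝ≥0, ∀ f₁ f₂ f₃ : 𝓢(ℝ, ℂ), ∀ g : ℝ → ℂ, IsTHT f₁ f₂ f₃ g →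
    eLpNorm g r volume ≤
      C * eLpNorm f₁ p₁ volume * eLpNorm f₂ p₂ volume * eLpNorm f₃ p₃ volume

end Vale.Agent.P141
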