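import Vale.Agent.P141.Main

/-!
Configurations near the faces `p₃ → 1` and `p₂ → 1`: `x - 3n` (resp. `x - 2n`) takes few values,
while the other two projections of a long progression overlap almost completely.
-/

namespace Vale.Agent.P141

open Finset
open scoped ENNReal

variable {ι : Type*} [Fintype ι] {β : Type*} [DecidableEq β]

/-- An injective statistic has maximal entropy. -/
lemma ent_of_injective [Nonempty ι] (π : ι → β) (h : Function.Injective π) :
    ent π = Real.log (Fintype.card ι) := by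
  have hM : (Fintype.card ι : ℝ) ≠ 0 := by exact_mod_cast Fintype.card_ne_zero
  have hc : ∀ i, cnt π (π i) = 1 := fun i => by
    rw [cnt, Finset.card_eq_one]
    exact ⟨i, by ext j; simp [h.eq_iff]⟩
  rw [ent, div_eq_iff hM]
  simp [lik, hc, mul_comm]

/-- Entropy is at most the logarithm of the number of values. -/
lemma ent_le_log [Nonempty ι] (π : ι → β) (S : Finset β) (hS : ∀ i, π i ∈ S) :
    ent π ≤ Real.log (S.card) := by
  classical
  have hM : (0 : ℝ) < Fintype.card ι := by exact_mod_cast Fintype.card_pos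
  have hK : (0 : ℝ) < S.card := by
    exact_mod_cast Finset.card_pos.2 ⟨_, hS (Classical.arbitrary ι)⟩
  set M : ℝ := (Fintype.card ι : ℝ)
  set K : ℝ := (S.card : ℝ)
  have key : ∀ i, lik π i ≤ Real.log K + (M / (K * cnt π (π i)) - 1) := by
    intro i
    have hc : (0 : ℝ) < cnt π (π i) := by exact_mod_cast cnt_pos π i
    have := Real.log_le_sub_one_of_pos (div_pos hM (mul_pos hK hc))
    rw [Real.log_div hM.ne' (mul_pos hK hc).ne', Real.log_mul hK.ne' hc.ne'] at this
    simp only [lik]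
    linarith
  have hfib : ∑ i, (1 : ℝ) / (cnt π (π i)) ≤ K := by
    rw [← Finset.sum_fiberwise_of_maps_to (g := π) (t := S) (fun i _ => hS i)]
    calc ∑ z ∈ S, ∑ i ∈ univ.filter (fun i => π i = z), (1 : ℝ) / (cnt π (π i))
        ≤ ∑ _z ∈ S, (1 : ℝ) := Finset.sum_le_sum (fun z _ => by
          rw [Finset.sum_congr rfl (fun i hi => by rw [(Finset.mem_filter.1 hi).2]),
            Finset.sum_const, nsmul_eq_mul]
          rcases eq_or_ne (cnt π z) 0 with h0 | h0
          · rw [show (univ.filter fun i => π i = z).card = 0 from h0]; simp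
          · exact le_of_eq (mul_one_div_cancel (by exact_mod_cast h0)))
      _ = K := by simp [K]
  rw [ent, div_le_iff₀ hM]
  calc ∑ i, lik π i ≤ ∑ i, (Real.log K + (M / (K * cnt π (π i)) - 1)) :=
        Finset.sum_le_sum (fun i _ => key i)
    _ = M * Real.log K + M / K * (∑ i, (1 : ℝ) / (cnt π (π i))) - M := by
        rw [Finset.sum_add_distrib, Finset.sum_sub_distrib, Finset.mul_sum]
        simp only [Finset.sum_const, Finset.card_univ, nsmul_eq_mul, mul_one]
        rw [show ∑ i, M / (K * (cnt π (π i) : ℝ)) = ∑ i, M / K * (1 / (cnt π (π i) : ℝ)) from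
          Finset.sum_congr rfl (fun i _ => by rw [div_mul_eq_div_div, mul_one_div])]
        ring
    _ ≤ M * Real.log K + M / K * K - M := by gcongr
    _ = Real.log K * M := by rw [div_mul_cancel₀ _ hK.ne']; ring

/-- `(x, n) = (3t + 2u, t)` with `t < L`, `u < 3`. -/
def faceCfg3 (L : ℕ) (p : Fin L × Fin 3) : ℤ × ℤ :=
  (3 * (p.1 : ℤ) + 2 * (p.2 : ℤ), (p.1 : ℤ))

/-- `(x, n) = (2t + u, t)` with `t < L`, `u < 2`. -/
def faceCfg2 (L : ℕ) (p : Fin L × Fin 2) : ℤ × ℤ :=
  (2 * (p.1 : ℤ) + (p.2 : ℤ), (p.1 : ℤ))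

lemma faceCfg3_fst_injective (L : ℕ) : Function.Injective (Prod.fst ∘ faceCfg3 L) := by
  rintro ⟨t, u⟩ ⟨t', u'⟩ h
  simp only [faceCfg3, Function.comp_apply] at h
  have := u.2
  have := u'.2
  refine Prod.ext (Fin.ext ?_) (Fin.ext ?_) <;> simp only <;> omega

lemma faceCfg2_fst_injective (L : ℕ) : Function.Injective (Prod.fst ∘ faceCfg2 L) := by
  rintro ⟨t, u⟩ ⟨t', u'⟩ h
  simp only [faceCfg2, Function.comp_apply] at h
  have := u.2
  have := u'.2
  refine Prod.ext (Fin.ext ?_) (Fin.ext ?_) <;> simp only <;> omega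

lemma log_natCast_mul (L m : ℕ) (hL : 0 < L) (hm : 0 < m) :
    Real.log ((L * m : ℕ) : ℝ) = Real.log L + Real.log m := by
  push_cast
  exact Real.log_mul (by exact_mod_cast hL.ne') (by exact_mod_cast hm.ne')

/-- Unboundedness for `s₃` near one and `s₁ + s₂ > 1`. -/
theorem not_boundedAt_face3 (L : ℕ) (hL : 0 < L) (p₁ p₂ p₃ : ℝ≥0∞) (r : ℝ) (hr : 0 < r)
    (hp : (ENNReal.ofReal r)⁻¹ = p₁⁻¹ + p₂⁻¹ + p₃⁻¹)
    (h : Real.log (3 * L) < (p₁⁻¹).toReal * Real.log (3 * L / (L + 2))
      + (p₂⁻¹).toReal * Real.log (3 * L / (L + 4)) + (p₃⁻¹).toReal * Real.log L) :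
    ¬ BoundedAt p₁ p₂ p₃ (ENNReal.ofReal r) := by
  have : Nonempty (Fin L × Fin 3) := ⟨(⟨0, hL⟩, 0)⟩
  set e := faceCfg3 L
  have hinj : Function.Injective e := (faceCfg3_fst_injective L).of_comp
  have hcard : Real.log (Fintype.card (Fin L × Fin 3)) = Real.log L + Real.log 3 := by
    rw [Fintype.card_prod, Fintype.card_fin, Fintype.card_fin, log_natCast_mul _ _ hL (by norm_num)]
    norm_num
  have hx : ent (Prod.fst ∘ e) = Real.log L + Real.log 3 := by
    rw [ent_of_injective _ (faceCfg3_fst_injective L), hcard]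
  have he : ent e = Real.log L + Real.log 3 := by rw [ent_of_injective _ hinj, hcard]
  have h1 : ent (proj 1 ∘ e) ≤ Real.log (L + 2) := by
    refine (ent_le_log _ ((Finset.range (L + 2)).image (fun k : ℕ => 2 * (k : ℤ))) ?_).trans ?_
    · rintro ⟨t, u⟩
      refine Finset.mem_image.2 ⟨(t : ℕ) + u, Finset.mem_range.2 (by have := t.2; have := u.2; omega), ?_⟩
      simp only [e, faceCfg3, proj, Function.comp_apply]; push_cast; ring
    · rw [Finset.card_image_of_injective _ (fun a b hab => by simpa using hab), Finset.card_range]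
      push_cast; exact le_rfl
  have h2 : ent (proj 2 ∘ e) ≤ Real.log (L + 4) := by
    refine (ent_le_log _ ((Finset.range (L + 4)).image (fun k : ℕ => (k : ℤ))) ?_).trans ?_
    · rintro ⟨t, u⟩
      refine Finset.mem_image.2 ⟨(t : ℕ) + 2 * u, Finset.mem_range.2 (by have := t.2; have := u.2; omega), ?_⟩
      simp only [e, faceCfg3, proj, Function.comp_apply]; push_cast; ring
    · rw [Finset.card_image_of_injective _ Nat.cast_injective, Finset.card_range]
      push_cast; exact le_rfl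
  have h3 : ent (proj 3 ∘ e) ≤ Real.log 3 := by
    refine (ent_le_log _ ((Finset.range 3).image (fun k : ℕ => 2 * (k : ℤ))) ?_).trans ?_
    · rintro ⟨t, u⟩
      refine Finset.mem_image.2 ⟨(u : ℕ), Finset.mem_range.2 u.2, ?_⟩
      simp only [e, faceCfg3, proj, Function.comp_apply]; ring
    · rw [Finset.card_image_of_injective _ (fun a b hab => by simpa using hab), Finset.card_range]
      norm_num
  have hL0 : (0 : ℝ) < L := by exact_mod_cast hL
  have hlogL : 0 ≤ Real.log (L : ℝ) := Real.log_natCast_nonneg L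
  have hlog3 : 0 ≤ Real.log (3 : ℝ) := Real.log_nonneg (by norm_num)
  rw [Real.log_mul (by norm_num) hL0.ne', Real.log_div (by positivity) (by positivity),
    Real.log_div (by positivity) (by positivity), Real.log_mul (by norm_num) hL0.ne'] at h
  refine not_boundedAt_of_config e (by rw [hx, he]; linarith) p₁ p₂ p₃ r hr hp ?_
  rw [hx, he]
  refine lt_of_lt_of_le (lt_of_eq_of_lt (by ring) h) (add_le_add (add_le_add
    (mul_le_mul_of_nonneg_left ?_ ENNReal.toReal_nonneg)
    (mul_le_mul_of_nonneg_left ?_ ENNReal.toReal_nonneg))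
    (mul_le_mul_of_nonneg_left ?_ ENNReal.toReal_nonneg)) <;> linarith

/-- Unboundedness for `s₂` near one and `s₁ + s₃ > 1`. -/
theorem not_boundedAt_face2 (L : ℕ) (hL : 0 < L) (p₁ p₂ p₃ : ℝ≥0∞) (r : ℝ) (hr : 0 < r)
    (hp : (ENNReal.ofReal r)⁻¹ = p₁⁻¹ + p₂⁻¹ + p₃⁻¹)
    (h : Real.log (2 * L) < ((p₁⁻¹).toReal + (p₃⁻¹).toReal) * Real.log (2 * L / (L + 1))
      + (p₂⁻¹).toReal * Real.log L) :
    ¬ BoundedAt p₁ p₂ p₃ (ENNReal.ofReal r) := by
  have : Nonempty (Fin L × Fin 2) := ⟨(⟨0, hL⟩, 0)⟩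
  set e := faceCfg2 L
  have hinj : Function.Injective e := (faceCfg2_fst_injective L).of_comp
  have hcard : Real.log (Fintype.card (Fin L × Fin 2)) = Real.log L + Real.log 2 := by
    rw [Fintype.card_prod, Fintype.card_fin, Fintype.card_fin, log_natCast_mul _ _ hL (by norm_num)]
    norm_num
  have hx : ent (Prod.fst ∘ e) = Real.log L + Real.log 2 := by
    rw [ent_of_injective _ (faceCfg2_fst_injective L), hcard]
  have he : ent e = Real.log L + Real.log 2 := by rw [ent_of_injective _ hinj, hcard]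
  have h1 : ent (proj 1 ∘ e) ≤ Real.log (L + 1) := by
    refine (ent_le_log _ ((Finset.range (L + 1)).image (fun k : ℕ => (k : ℤ))) ?_).trans ?_
    · rintro ⟨t, u⟩
      refine Finset.mem_image.2 ⟨(t : ℕ) + u, Finset.mem_range.2 (by have := t.2; have := u.2; omega), ?_⟩
      simp only [e, faceCfg2, proj, Function.comp_apply]; push_cast; ring
    · rw [Finset.card_image_of_injective _ Nat.cast_injective, Finset.card_range]
      push_cast; exact le_rfl
  have h3 : ent (proj 3 ∘ e) ≤ Real.log (L + 1) := by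
    refine (ent_le_log _ (Finset.Icc (1 - (L : ℤ)) 1) ?_).trans ?_
    · rintro ⟨t, u⟩
      simp only [e, faceCfg2, proj, Function.comp_apply, Finset.mem_Icc]
      have := t.2; have := u.2
      constructor <;> omega
    · rw [Int.card_Icc, show (1 + 1 - (1 - (L : ℤ))).toNat = L + 1 by omega]
      push_cast; exact le_rfl
  have h2 : ent (proj 2 ∘ e) ≤ Real.log 2 := by
    refine (ent_le_log _ ((Finset.range 2).image (fun k : ℕ => (k : ℤ))) ?_).trans ?_
    · rintro ⟨t, u⟩
      refine Finset.mem_image.2 ⟨(u : ℕ), Finset.mem_range.2 u.2, ?_⟩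
      simp only [e, faceCfg2, proj, Function.comp_apply]; ring
    · rw [Finset.card_image_of_injective _ Nat.cast_injective, Finset.card_range]
      norm_num
  have hL0 : (0 : ℝ) < L := by exact_mod_cast hL
  have hlogL : 0 ≤ Real.log (L : ℝ) := Real.log_natCast_nonneg L
  have hlog2 : 0 ≤ Real.log (2 : ℝ) := Real.log_nonneg (by norm_num)
  rw [Real.log_mul (by norm_num) hL0.ne', Real.log_div (by positivity) (by positivity),
    Real.log_mul (by norm_num) hL0.ne'] at h
  refine not_boundedAt_of_config e (by rw [hx, he]; linarith) p₁ p₂ p₃ r hr hp ?_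
  rw [hx, he]
  set a := (p₁⁻¹).toReal
  set b := (p₂⁻¹).toReal
  set c := (p₃⁻¹).toReal
  have n1 : 0 ≤ a := ENNReal.toReal_nonneg
  have n2 : 0 ≤ b := ENNReal.toReal_nonneg
  have n3 : 0 ≤ c := ENNReal.toReal_nonneg
  nlinarith [mul_le_mul_of_nonneg_left h1 n1, mul_le_mul_of_nonneg_left h2 n2,
    mul_le_mul_of_nonneg_left h3 n3]

/-- For `s₁ + s₂ > 1` the hypothesis of `not_boundedAt_face3` holds for all `s₃` close to one. -/
theorem face3_threshold (s₁ s₂ : ℝ) (h₁ : 0 ≤ s₁) (h₂ : 0 ≤ s₂) (h : 1 < s₁ + s₂) :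
    ∃ (L : ℕ) (δ : ℝ), 0 < L ∧ 0 < δ ∧ ∀ s₃ : ℝ, 1 - δ < s₃ →
      Real.log (3 * L) < s₁ * Real.log (3 * L / (L + 2)) + s₂ * Real.log (3 * L / (L + 4))
        + s₃ * Real.log L := by
  have hc : Real.log 3 / (s₁ + s₂) < Real.log 3 := by
    rw [div_lt_iff₀ (by linarith)]
    nlinarith [Real.log_pos (show (1 : ℝ) < 3 by norm_num)]
  set ρ := Real.log 3 - Real.log 3 / (s₁ + s₂) with hρ
  have hρ0 : 0 < ρ := by linarith
  obtain ⟨L, hL⟩ := exists_nat_gt (4 / ρ + 1)
  have hL1 : (1 : ℝ) < L := by have := div_pos (show (0 : ℝ) < 4 by norm_num) hρ0; linarith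
  have hlogL : 0 < Real.log (L : ℝ) := Real.log_pos hL1
  have hsmall : 4 / (L : ℝ) < ρ := by
    rw [div_lt_iff₀ (by linarith)]
    rw [← sub_pos] at hL
    nlinarith [mul_pos hρ0 hL, div_mul_cancel₀ (4 : ℝ) hρ0.ne']
  have hb : ∀ k : ℝ, 0 ≤ k → k ≤ 4 → Real.log (L + k) ≤ Real.log L + 4 / L := by
    intro k h0 h4
    have := Real.log_le_sub_one_of_pos (show (0 : ℝ) < (L + k) / L by positivity)
    rw [Real.log_div (by linarith) (by linarith), add_div, div_self (by linarith)] at this
    have : k / (L : ℝ) ≤ 4 / L := by gcongr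
    linarith
  set G := (s₁ + s₂) * (Real.log 3 - 4 / L) - Real.log 3 with hG
  have hG0 : 0 < G := by
    have : (s₁ + s₂) * (Real.log 3 / (s₁ + s₂)) = Real.log 3 := by field_simp
    have := mul_lt_mul_of_pos_left (show Real.log 3 / (s₁ + s₂) < Real.log 3 - 4 / L by linarith)
      (show 0 < s₁ + s₂ by linarith)
    linarith
  refine ⟨L, G / Real.log L, by exact_mod_cast (show (0 : ℝ) < L by linarith), div_pos hG0 hlogL,
    fun s₃ hs => ?_⟩
  rw [Real.log_mul (by norm_num) (by linarith), Real.log_div (by positivity) (by positivity),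
    Real.log_div (by positivity) (by positivity), Real.log_mul (by norm_num) (by linarith)]
  have e3 : Real.log L - G < s₃ * Real.log L := by
    have := mul_lt_mul_of_pos_right hs hlogL
    rwa [sub_mul, one_mul, div_mul_cancel₀ _ hlogL.ne'] at this
  nlinarith [mul_le_mul_of_nonneg_left (hb 2 (by norm_num) (by norm_num)) h₁,
    mul_le_mul_of_nonneg_left (hb 4 (by norm_num) le_rfl) h₂]

/-- For `s₁ + s₃ > 1` the hypothesis of `not_boundedAt_face2` holds for all `s₂` close to one. -/
theorem face2_threshold (s₁ s₃ : ℝ) (h : 1 < s₁ + s₃) :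
    ∃ (L : ℕ) (δ : ℝ), 0 < L ∧ 0 < δ ∧ ∀ s₂ : ℝ, 1 - δ < s₂ →
      Real.log (2 * L) < (s₁ + s₃) * Real.log (2 * L / (L + 1)) + s₂ * Real.log L := by
  set u := s₁ + s₃ with hu
  have hl2 : 0 < Real.log (2 : ℝ) := Real.log_pos (by norm_num)
  set ρ := (u - 1) * Real.log 2 with hρ
  have hρ0 : 0 < ρ := mul_pos (by linarith) hl2
  obtain ⟨L, hL⟩ := exists_nat_gt (u / ρ + 1)
  have hL1 : (1 : ℝ) < L := by have := div_pos (show (0 : ℝ) < u by linarith) hρ0; linarith
  have hlogL : 0 < Real.log (L : ℝ) := Real.log_pos hL1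
  have hsmall : u / (L : ℝ) < ρ := by
    rw [div_lt_iff₀ (by linarith)]
    rw [← sub_pos] at hL
    nlinarith [mul_pos hρ0 hL, div_mul_cancel₀ u hρ0.ne']
  have hb : Real.log (L + 1) ≤ Real.log L + 1 / L := by
    have := Real.log_le_sub_one_of_pos (show (0 : ℝ) < (L + 1) / L by positivity)
    rw [Real.log_div (by linarith) (by linarith), add_div, div_self (by linarith)] at this
    linarith
  refine ⟨L, (ρ - u / L) / Real.log L, by exact_mod_cast (show (0 : ℝ) < L by linarith),
    div_pos (by linarith) hlogL, fun s₂ hs => ?_⟩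
  rw [Real.log_mul (by norm_num) (by linarith), Real.log_div (by positivity) (by positivity),
    Real.log_mul (by norm_num) (by linarith)]
  have e2 : Real.log L - (ρ - u / L) < s₂ * Real.log L := by
    have := mul_lt_mul_of_pos_right hs hlogL
    rwa [sub_mul, one_mul, div_mul_cancel₀ _ hlogL.ne'] at this
  have hb' := mul_le_mul_of_nonneg_left hb (show 0 ≤ u by linarith)
  have e3 : u * (1 / (L : ℝ)) = u / L := by ring
  nlinarith

end Vale.Agent.P141
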