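import Mathlib

namespace Vale.Agent.P141

open Finset

/-- Random linear hashing of integer vectors into `ZMod Q`. -/
def hashMap {K Q : ℕ} (h : Fin K → ZMod Q) (v : Fin K → ℤ) : ZMod Q :=
  ∑ j, h j * (v j : ZMod Q)

lemma hashMap_sub {K Q : ℕ} (h : Fin K → ZMod Q) (v w : Fin K → ℤ) :
    hashMap h (v - w) = hashMap h v - hashMap h w := by
  simp [hashMap, mul_sub, Finset.sum_sub_distrib]

lemma hashMap_zsmul_sub {K Q : ℕ} (h : Fin K → ZMod Q) (x n : Fin K → ℤ) (i : ℤ) :
    hashMap h (x - i • n) = hashMap h x - (i : ZMod Q) * hashMap h n := by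
  simp [hashMap, mul_sub, Finset.sum_sub_distrib, Finset.mul_sum, mul_left_comm]

lemma collide_card {K Q : ℕ} [Fact Q.Prime] {D : ℤ} (hD : 2 * D < (Q : ℤ))
    (v w : Fin K → ℤ) (hv : ∀ j, |v j| ≤ D) (hw : ∀ j, |w j| ≤ D) (hne : v ≠ w) :
    (univ.filter (fun h : Fin K → ZMod Q => hashMap h v = hashMap h w)).card * Q
      ≤ Fintype.card (Fin K → ZMod Q) := by
  obtain ⟨j0, hj0⟩ := Function.ne_iff.1 hne
  have hnz : (((v - w) j0 : ℤ) : ZMod Q) ≠ 0 := by
    rw [Ne, ZMod.intCast_zmod_eq_zero_iff_dvd]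
    intro hdvd
    have hne0 : (v - w) j0 ≠ 0 := sub_ne_zero.2 hj0
    have h1 := Int.le_of_dvd (abs_pos.2 hne0) ((dvd_abs _ _).2 hdvd)
    have h2 : |(v - w) j0| ≤ |v j0| + |w j0| := abs_sub _ _
    have := hv j0; have := hw j0
    omega
  set S := univ.filter (fun h : Fin K → ZMod Q => hashMap h v = hashMap h w)
  have key : (S ×ˢ (univ : Finset (ZMod Q))).card ≤ (univ : Finset (Fin K → ZMod Q)).card := by
    refine Finset.card_le_card_of_injOn (fun p => p.1 + Pi.single j0 p.2) (by simp) ?_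
    intro p hp q hq hpq
    simp only [coe_product, Set.mem_prod, coe_filter, mem_univ, true_and, Set.mem_setOf_eq, S]
      at hp hq
    have hd : ∀ r : (Fin K → ZMod Q) × ZMod Q, hashMap r.1 v = hashMap r.1 w →
        hashMap (r.1 + Pi.single j0 r.2) (v - w) = r.2 * (((v - w) j0 : ℤ) : ZMod Q) := by
      intro r hr
      have h0 : hashMap r.1 (v - w) = 0 := by rw [hashMap_sub, hr, sub_self]
      simp only [hashMap, Pi.add_apply, add_mul, Finset.sum_add_distrib] at h0 ⊢
      rw [h0, zero_add, Finset.sum_eq_single j0]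
      · simp
      · intro b _ hb; simp [Pi.single_eq_of_ne hb]
      · simp
    have h1 := hd p hp.1
    have h2 := hd q hq.1
    have h12 : p.2 = q.2 := by
      apply mul_right_cancel₀ hnz
      rw [← h1, ← h2, show p.1 + Pi.single j0 p.2 = q.1 + Pi.single j0 q.2 from hpq]
    have h11 : p.1 = q.1 := by
      have := hpq; simp only [h12] at this; exact add_right_cancel this
    exact Prod.ext h11 h12
  simpa [Finset.card_product, ZMod.card] using key

/-- Bad weight of a point `x` under the hash `h`. -/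
noncomputable def badWeight {K Q : ℕ} (X : Finset (Fin K → ℤ))
    (N : (Fin K → ℤ) → Finset (Fin K → ℤ)) (h : Fin K → ZMod Q) (x : Fin K → ℤ) : ℝ :=
  (((X.erase x).filter (fun y => hashMap h y = hashMap h x)).card : ℝ)
    + 2 * ((∑ n ∈ N x, (((N x).erase n).filter
        (fun m => hashMap h m = hashMap h n)).card : ℕ) : ℝ) / (N x).card

lemma sum_coll_le {K Q : ℕ} [Fact Q.Prime] {D : ℤ} (hD : 2 * D < (Q : ℤ))
    (S : Finset (Fin K → ℤ)) (hS : ∀ v ∈ S, ∀ j, |v j| ≤ D) (v : Fin K → ℤ) (hv : v ∈ S) :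
    (∑ h : Fin K → ZMod Q, ((((S.erase v).filter (fun y => hashMap h y = hashMap h v)).card) : ℝ))
      * Q ≤ S.card * (Fintype.card (Fin K → ZMod Q) : ℝ) := by
  have h1 : (∑ h : Fin K → ZMod Q, ((S.erase v).filter
      (fun y => hashMap h y = hashMap h v)).card) * Q
      ≤ S.card * Fintype.card (Fin K → ZMod Q) := by
    simp only [Finset.card_filter]
    rw [Finset.sum_comm, Finset.sum_mul]
    refine le_trans (Finset.sum_le_card_nsmul (n := Fintype.card (Fin K → ZMod Q)) _ _ ?_) ?_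
    · intro y hy
      rw [← Finset.card_filter]
      exact collide_card hD y v (hS y (mem_of_mem_erase hy)) (hS v hv) (ne_of_mem_erase hy)
    · rw [smul_eq_mul]
      exact Nat.mul_le_mul_right _ (Finset.card_le_card (Finset.erase_subset _ _))
  exact_mod_cast h1

lemma badWeight_nonneg {K Q : ℕ} (X : Finset (Fin K → ℤ))
    (N : (Fin K → ℤ) → Finset (Fin K → ℤ)) (h : Fin K → ZMod Q) (x : Fin K → ℤ) :
    0 ≤ badWeight X N h x := by
  unfold badWeight
  exact add_nonneg (Nat.cast_nonneg _)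
    (div_nonneg (mul_nonneg zero_le_two (Nat.cast_nonneg _)) (Nat.cast_nonneg _))

lemma exists_avg_hash {K Q : ℕ} [Fact Q.Prime] {D : ℤ} (hD : 2 * D < (Q : ℤ))
    (X : Finset (Fin K → ℤ)) (N : (Fin K → ℤ) → Finset (Fin K → ℤ))
    (hX : ∀ x ∈ X, ∀ j, |x j| ≤ D) (hN : ∀ x ∈ X, ∀ n ∈ N x, ∀ j, |n j| ≤ D)
    (hNne : ∀ x ∈ X, (N x).Nonempty)
    (hXQ : 8 * X.card ≤ Q) (hNQ : ∀ x ∈ X, 8 * (N x).card ≤ Q) :
    ∃ h : Fin K → ZMod Q, ∑ x ∈ X, badWeight X N h x ≤ (X.card : ℝ) / 2 := by
  set H : ℝ := (Fintype.card (Fin K → ZMod Q) : ℝ) with hH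
  have hH0 : 0 ≤ H := Nat.cast_nonneg _
  have hQ : (0 : ℝ) < Q := by exact_mod_cast (Fact.out : Q.Prime).pos
  have hx : ∀ x ∈ X, ∑ h : Fin K → ZMod Q, badWeight X N h x ≤ H / 2 := by
    intro x hx
    have hR : (0 : ℝ) < (N x).card := by exact_mod_cast (hNne x hx).card_pos
    have a1 := sum_coll_le hD X hX x hx
    have a1' : (X.card : ℝ) * 8 ≤ Q := by
      have : ((8 * X.card : ℕ) : ℝ) ≤ Q := by exact_mod_cast hXQ
      push_cast at this; linarith
    have a2' : ((N x).card : ℝ) * 8 ≤ Q := by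
      have : ((8 * (N x).card : ℕ) : ℝ) ≤ Q := by exact_mod_cast hNQ x hx
      push_cast at this; linarith
    have b1 : (∑ h : Fin K → ZMod Q, (((X.erase x).filter
        (fun y => hashMap h y = hashMap h x)).card : ℝ)) ≤ H / 8 := by
      have := mul_le_mul_of_nonneg_right a1' hH0
      nlinarith
    have b2 : (∑ n ∈ N x, ∑ h : Fin K → ZMod Q, ((((N x).erase n).filter
        (fun m => hashMap h m = hashMap h n)).card : ℝ)) ≤ (N x).card * (H / 8) := by
      rw [← nsmul_eq_mul]
      refine Finset.sum_le_card_nsmul _ _ _ (fun n hn => ?_)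
      have a2 := sum_coll_le hD (N x) (hN x hx) n hn
      have := mul_le_mul_of_nonneg_right a2' hH0
      nlinarith
    simp only [badWeight, Finset.sum_add_distrib]
    push_cast
    rw [← Finset.sum_div, ← Finset.mul_sum, Finset.sum_comm]
    have b3 : 2 * (∑ n ∈ N x, ∑ h : Fin K → ZMod Q, ((((N x).erase n).filter
        (fun m => hashMap h m = hashMap h n)).card : ℝ)) / (N x).card ≤ H / 4 := by
      rw [div_le_iff₀ hR]; linarith
    linarith
  obtain ⟨h, -, hh⟩ : ∃ h ∈ (univ : Finset (Fin K → ZMod Q)),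
      ∑ x ∈ X, badWeight X N h x ≤ (X.card : ℝ) / 2 := by
    refine Finset.exists_le_of_sum_le univ_nonempty ?_
    rw [Finset.sum_comm, Finset.sum_const, nsmul_eq_mul, Finset.card_univ, ← hH]
    calc ∑ x ∈ X, ∑ h : Fin K → ZMod Q, badWeight X N h x ≤ ∑ _x ∈ X, H / 2 := Finset.sum_le_sum hx
      _ = H * ((X.card : ℝ) / 2) := by rw [Finset.sum_const, nsmul_eq_mul]; ring
  exact ⟨h, hh⟩

theorem exists_good_hash {K Q : ℕ} [Fact Q.Prime] {D : ℤ} (hD : 2 * D < (Q : ℤ))
    (X : Finset (Fin K → ℤ)) (N : (Fin K → ℤ) → Finset (Fin K → ℤ))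
    (hX : ∀ x ∈ X, ∀ j, |x j| ≤ D) (hN : ∀ x ∈ X, ∀ n ∈ N x, ∀ j, |n j| ≤ D)
    (hNne : ∀ x ∈ X, (N x).Nonempty)
    (hXQ : 8 * X.card ≤ Q) (hNQ : ∀ x ∈ X, 8 * (N x).card ≤ Q) :
    ∃ h : Fin K → ZMod Q, ∃ G ⊆ X, X.card ≤ 2 * G.card ∧ Set.InjOn (hashMap h) (G : Set _) ∧
      ∀ x ∈ G, (N x).card ≤ 2 * ((N x).image (hashMap h)).card := by
  obtain ⟨h, hh⟩ := exists_avg_hash hD X N hX hN hNne hXQ hNQ
  have hnn : ∀ x, 0 ≤ badWeight X N h x := badWeight_nonneg X N h
  refine ⟨h, X.filter (fun x => badWeight X N h x < 1), Finset.filter_subset _ _, ?_, ?_, ?_⟩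
  · have e := Finset.card_filter_add_card_filter_not (s := X) (fun x => badWeight X N h x < 1)
    have : ((X.filter (fun x => ¬ badWeight X N h x < 1)).card : ℝ) ≤ X.card / 2 := by
      refine le_trans ?_ hh
      refine le_trans ?_ (Finset.sum_le_sum_of_subset_of_nonneg
        (Finset.filter_subset (fun x => ¬ badWeight X N h x < 1) X) (fun x _ _ => hnn x))
      have := Finset.card_nsmul_le_sum (X.filter (fun x => ¬ badWeight X N h x < 1))
        (fun x => badWeight X N h x) 1 (fun x hx => not_lt.1 (Finset.mem_filter.1 hx).2)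
      simpa using this
    have h2 : 2 * (X.filter (fun x => ¬ badWeight X N h x < 1)).card ≤ X.card := by
      exact_mod_cast (by linarith : 2 * ((X.filter (fun x => ¬ badWeight X N h x < 1)).card : ℝ) ≤ X.card)
    omega
  · intro x hx y hy hxy
    rw [Finset.mem_coe, Finset.mem_filter] at hx hy
    by_contra hne
    have hc : (1 : ℝ) ≤ (((X.erase x).filter (fun z => hashMap h z = hashMap h x)).card : ℝ) := by
      have : 1 ≤ ((X.erase x).filter (fun z => hashMap h z = hashMap h x)).card :=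
        Finset.card_pos.2 ⟨y, Finset.mem_filter.2 ⟨Finset.mem_erase.2 ⟨Ne.symm hne, hy.1⟩, hxy.symm⟩⟩
      exact_mod_cast this
    have h1 := hx.2
    unfold badWeight at h1
    have : 0 ≤ 2 * ((∑ n ∈ N x, (((N x).erase n).filter
        (fun m => hashMap h m = hashMap h n)).card : ℕ) : ℝ) / (N x).card :=
      div_nonneg (mul_nonneg zero_le_two (Nat.cast_nonneg _)) (Nat.cast_nonneg _)
    linarith
  · intro x hx
    rw [Finset.mem_filter] at hx
    have hR : (0 : ℝ) < (N x).card := by exact_mod_cast (hNne x hx.1).card_pos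
    set P := ∑ n ∈ N x, (((N x).erase n).filter (fun m => hashMap h m = hashMap h n)).card with hP
    have h1 := hx.2
    unfold badWeight at h1
    rw [← hP] at h1
    have h2 : 2 * (P : ℝ) / (N x).card < 1 := by
      have : (0:ℝ) ≤ (((X.erase x).filter (fun y => hashMap h y = hashMap h x)).card : ℝ) :=
        Nat.cast_nonneg _
      linarith
    rw [div_lt_one hR] at h2
    have h3 : 2 * P < (N x).card := by exact_mod_cast h2
    set W := (N x).filter (fun n => (((N x).erase n).filter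
      (fun m => hashMap h m = hashMap h n)).card = 0) with hW
    have h4 : ((N x).filter (fun n => ¬ (((N x).erase n).filter
        (fun m => hashMap h m = hashMap h n)).card = 0)).card ≤ P := by
      rw [hP]
      refine le_trans ?_ (Finset.sum_le_sum_of_subset (Finset.filter_subset
        (fun n => ¬ (((N x).erase n).filter (fun m => hashMap h m = hashMap h n)).card = 0) (N x)))
      rw [Finset.card_eq_sum_ones]
      exact Finset.sum_le_sum (fun n hn => Nat.one_le_iff_ne_zero.2 (Finset.mem_filter.1 hn).2)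
    have h5 := Finset.card_filter_add_card_filter_not (s := N x) (fun n => (((N x).erase n).filter
        (fun m => hashMap h m = hashMap h n)).card = 0)
    rw [← hW] at h5
    have h6 : W.card ≤ ((N x).image (hashMap h)).card := by
      refine Finset.card_le_card_of_injOn (hashMap h) ?_ ?_
      · intro n hn; exact Finset.mem_image_of_mem _ (Finset.mem_filter.1 hn).1
      · intro n hn m hm hnm
        by_contra hne
        have := (Finset.mem_filter.1 hn).2
        rw [Finset.card_eq_zero, Finset.filter_eq_empty_iff] at this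
        exact this (Finset.mem_erase.2 ⟨Ne.symm hne, (Finset.mem_filter.1 hm).1⟩) hnm.symm
    omega

end Vale.Agent.P141
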