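import Vale.Agent.P141.Config
import Vale.Agent.P141.Hash
import Vale.Agent.P141.Analysis

namespace Vale.Agent.P141

open MeasureTheory Filter Finset
open scoped Topology ENNReal NNReal SchwartzMap

lemma ent_nonneg {ι : Type*} [Fintype ι] [Nonempty ι] {β : Type*} [DecidableEq β] (π : ι → β) :
    0 ≤ ent π := by
  refine div_nonneg (Finset.sum_nonneg (fun i _ => sub_nonneg.2 ?_)) (Nat.cast_nonneg _)
  refine Real.log_le_log (by exact_mod_cast cnt_pos π i) ?_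
  exact_mod_cast Finset.card_le_univ _

/-- Integers in the half-open window `(-lo Q, -hi Q]` in given residue classes. -/
noncomputable def liftSet {Q : ℕ} (lo hi : ℤ) (S : Finset (ZMod Q)) : Finset ℤ :=
  (Finset.Ioc (-lo * (Q : ℤ)) (-hi * (Q : ℤ))).filter (fun m => (m : ZMod Q) ∈ S)

lemma liftSet_card_le {Q : ℕ} [NeZero Q] (lo hi : ℤ) (hlo : lo ≤ 40) (hhi : 0 ≤ hi)
    (S : Finset (ZMod Q)) : (liftSet lo hi S).card ≤ 41 * S.card := by
  have hQ : (0 : ℤ) < Q := by exact_mod_cast Nat.pos_of_neZero Q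
  have h : liftSet lo hi S ⊆ (S ×ˢ Finset.Icc (-40 : ℤ) 0).image
      (fun p => (p.1.val : ℤ) + p.2 * Q) := by
    intro m hm
    obtain ⟨hm1, hm2⟩ := Finset.mem_filter.1 hm
    obtain ⟨h1, h2⟩ := Finset.mem_Ioc.1 hm1
    refine Finset.mem_image.2 ⟨((m : ZMod Q), m / Q), Finset.mem_product.2 ⟨hm2, ?_⟩, ?_⟩
    · rw [Finset.mem_Icc]
      constructor
      · rw [Int.le_ediv_iff_mul_le hQ]; nlinarith
      · by_contra hc
        have : (1 : ℤ) ≤ m / Q := by omega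
        rw [Int.le_ediv_iff_mul_le hQ] at this
        nlinarith
    · simp only [ZMod.val_intCast]
      rw [mul_comm]
      exact Int.emod_add_mul_ediv m Q
  refine (Finset.card_le_card h).trans (Finset.card_image_le.trans ?_)
  simp [Finset.card_product, mul_comm]

/-- The core criterion: a finite configuration with the stated linear entropy inequality makes
the trilinear Hilbert transform unbounded. -/
theorem not_boundedAt_of_config {ι : Type*} [Fintype ι] [Nonempty ι] (e : ι → ℤ × ℤ)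
    (hden : ent e ≤ 2 * ent (Prod.fst ∘ e)) (p₁ p₂ p₃ : ℝ≥0∞) (r : ℝ) (hr : 0 < r)
    (hp : (ENNReal.ofReal r)⁻¹ = p₁⁻¹ + p₂⁻¹ + p₃⁻¹)
    (hlt : 2 * ent (Prod.fst ∘ e) - ent e
      < (p₁⁻¹).toReal * (ent (Prod.fst ∘ e) - ent (proj 1 ∘ e))
        + (p₂⁻¹).toReal * (ent (Prod.fst ∘ e) - ent (proj 2 ∘ e))
        + (p₃⁻¹).toReal * (ent (Prod.fst ∘ e) - ent (proj 3 ∘ e))) :
    ¬ BoundedAt p₁ p₂ p₃ (ENNReal.ofReal r) := by
  classical
  rintro ⟨Cst, hC⟩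
  set Hx := ent (Prod.fst ∘ e) with hHx
  set He := ent e with hHe
  set H₁ := ent (proj 1 ∘ e) with hH₁
  set H₂ := ent (proj 2 ∘ e) with hH₂
  set H₃ := ent (proj 3 ∘ e) with hH₃
  have hHx0 : 0 ≤ Hx := ent_nonneg _
  -- exponents
  set s₁ := 1 / p₁.toReal with hs1d
  set s₂ := 1 / p₂.toReal with hs2d
  set s₃ := 1 / p₃.toReal with hs3d
  rw [ENNReal.toReal_inv, ENNReal.toReal_inv, ENNReal.toReal_inv, ← one_div, ← one_div, ← one_div,
    ← hs1d, ← hs2d, ← hs3d] at hlt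
  have hs₁ : 0 ≤ s₁ := div_nonneg zero_le_one ENNReal.toReal_nonneg
  have hs₂ : 0 ≤ s₂ := div_nonneg zero_le_one ENNReal.toReal_nonneg
  have hs₃ : 0 ≤ s₃ := div_nonneg zero_le_one ENNReal.toReal_nonneg
  have hsum : s₁ + s₂ + s₃ = 1 / r := by
    have hfin : p₁⁻¹ + p₂⁻¹ + p₃⁻¹ ≠ ⊤ := by
      rw [← hp, Ne, ENNReal.inv_eq_top, ENNReal.ofReal_eq_zero, not_le]; exact hr
    obtain ⟨hfin12, hfin3⟩ := ENNReal.add_ne_top.1 hfin
    obtain ⟨hfin1, hfin2⟩ := ENNReal.add_ne_top.1 hfin12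
    have := congrArg ENNReal.toReal hp
    rw [ENNReal.toReal_inv, ENNReal.toReal_ofReal hr.le, ENNReal.toReal_add hfin12 hfin3,
      ENNReal.toReal_add hfin1 hfin2, ENNReal.toReal_inv, ENNReal.toReal_inv,
      ENNReal.toReal_inv] at this
    simp only [s₁, s₂, s₃, one_div]
    linarith
  set gap := s₁ * (Hx - H₁) + s₂ * (Hx - H₂) + s₃ * (Hx - H₃) - (2 * Hx - He) with hgap
  have hgap0 : 0 < gap := by rw [hgap]; linarith
  set ε := gap / (8 + 8 / r) with hε'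
  have hε : 0 < ε := div_pos hgap0 (by positivity)
  set η := gap - (4 + 4 / r) * ε with hη'
  have hη : 0 < η := by
    have e2 : (4 + 4 / r) * ε = gap / 2 := by rw [hε']; field_simp; ring
    rw [hη', e2]; linarith
  obtain ⟨D, K0, hK0⟩ := exists_combinatorial e ε hε
  set c0 : ℝ := 8 + 2 * |(D : ℝ)| + 2 with hc0
  have hc0pos : 0 < c0 := by positivity
  -- choose K large
  have hev := ((Real.tendsto_exp_atTop.comp
    (tendsto_natCast_atTop_atTop.atTop_mul_const hη)).eventually_gt_atTop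
      (((Cst : ℝ) * (41 : ℝ) ^ (1 / r)) * (4096 * c0) * (128 : ℝ) ^ (1 / r))).and
        (eventually_ge_atTop K0)
  obtain ⟨K, hKbig, hK⟩ := hev.exists
  simp only [Function.comp_apply] at hKbig
  obtain ⟨X, N, A, hXD, hND, hXle, hXge, hNle, hNge, hAle, hmemA⟩ := hK0 K hK
  have hKnn : (0 : ℝ) ≤ (K : ℝ) := Nat.cast_nonneg K
  -- the modulus
  set EQ := Real.exp ((K : ℝ) * (Hx + 2 * ε)) with hEQ
  have hEQ1 : 1 ≤ EQ := Real.one_le_exp (mul_nonneg hKnn (by linarith))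
  set n0 : ℕ := ⌈8 * EQ⌉₊ + 2 * D.natAbs + 1 with hn0
  obtain ⟨Q, hQp, hQlo, hQhi⟩ := Nat.exists_prime_lt_and_le_two_mul n0 (by omega)
  haveI : Fact Q.Prime := ⟨hQp⟩
  haveI : NeZero Q := ⟨hQp.ne_zero⟩
  have hD : 2 * D < (Q : ℤ) := by omega
  have h8 : 8 * EQ ≤ (Q : ℝ) := by
    refine (Nat.le_ceil _).trans ?_
    exact_mod_cast (show ⌈8 * EQ⌉₊ ≤ Q by omega)
  have hQle : (Q : ℝ) ≤ 2 * c0 * EQ := by
    have a1 : (Q : ℝ) ≤ 2 * ((⌈8 * EQ⌉₊ : ℝ) + 2 * |(D : ℝ)| + 1) := by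
      have : (Q : ℝ) ≤ ((2 * n0 : ℕ) : ℝ) := by exact_mod_cast hQhi
      rw [hn0] at this
      push_cast [Nat.cast_natAbs] at this
      linarith
    have a2 : (⌈8 * EQ⌉₊ : ℝ) < 8 * EQ + 1 := Nat.ceil_lt_add_one (by linarith)
    have a3 : 0 ≤ (EQ - 1) * (2 * |(D : ℝ)| + 2) := mul_nonneg (by linarith) (by positivity)
    rw [hc0]; linarith
  have hXQ : 8 * X.card ≤ Q := by
    have : (X.card : ℝ) ≤ EQ := hXle.trans (Real.exp_le_exp.2 (by gcongr; linarith))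
    have h' : ((8 * X.card : ℕ) : ℝ) ≤ Q := by push_cast; linarith
    exact_mod_cast h'
  have hNQ : ∀ x ∈ X, 8 * (N x).card ≤ Q := by
    intro x hx
    have : ((N x).card : ℝ) ≤ EQ := (hNle x hx).trans (Real.exp_le_exp.2 (by gcongr; linarith))
    have h' : ((8 * (N x).card : ℕ) : ℝ) ≤ Q := by push_cast; linarith
    exact_mod_cast h'
  have hNne : ∀ x ∈ X, (N x).Nonempty := by
    intro x hx
    rw [← Finset.card_pos]
    have : (0 : ℝ) < (N x).card := lt_of_lt_of_le (by positivity) (hNge x hx)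
    exact_mod_cast this
  obtain ⟨h, G, hGX, hGcard, hinj, hNimg⟩ := exists_good_hash hD X N hXD hND hNne hXQ hNQ
  -- integer sets
  set φ := hashMap h
  set A₁ := liftSet 11 8 ((A 1).image φ)
  set A₂ := liftSet 23 18 ((A 2).image φ)
  set A₃ := liftSet 34 28 ((A 3).image φ)
  set Gs : Finset ℤ := G.image (fun x => ((φ x).val : ℤ)) with hGs
  set Ns : ℤ → Finset ℤ := fun z => (G.filter (fun x => ((φ x).val : ℤ) = z)).biUnion
    (fun x => ((N x).image φ).image (fun v => (v.val : ℤ) + 10 * Q))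
  obtain ⟨R, hR, hRle⟩ : ∃ R : ℝ, R = Real.exp ((K : ℝ) * (He - Hx - 2 * ε)) / 4 ∧
      ∀ x ∈ X, R ≤ (N x).card := ⟨_, rfl, hNge⟩
  have hsep : ∀ a ∈ A₁, ∀ b ∈ A₂, 2 * (Q : ℤ) ≤ a - b ∧ a - b ≤ 15 * (Q : ℤ) := by
    intro a ha b hb
    have ha := Finset.mem_Ioc.1 (Finset.mem_filter.1 ha).1
    have hb := Finset.mem_Ioc.1 (Finset.mem_filter.1 hb).1
    constructor <;> linarith
  have hGscard : Gs.card = G.card := Finset.card_image_of_injOn (fun x hx y hy hxy =>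
    hinj hx hy (ZMod.val_injective Q (by exact_mod_cast hxy)))
  obtain ⟨m, hm, hmR⟩ : ∃ m : ℕ, (∀ z ∈ Gs, m ≤ (Ns z).card) ∧ R / 2 ≤ (m : ℝ) := by
    refine ⟨⌈R / 2⌉₊, fun z hz => ?_, Nat.le_ceil _⟩
    obtain ⟨x, hx, rfl⟩ := Finset.mem_image.1 hz
    rw [Nat.ceil_le]
    have hsub : ((N x).image φ).image (fun v => (v.val : ℤ) + 10 * Q) ⊆ Ns ((φ x).val : ℤ) := by
      intro y hy
      exact Finset.mem_biUnion.2 ⟨x, Finset.mem_filter.2 ⟨hx, rfl⟩, hy⟩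
    have hc : (((N x).image φ).image (fun v => (v.val : ℤ) + 10 * Q)).card = ((N x).image φ).card :=
      Finset.card_image_of_injective _ (fun a b hab => ZMod.val_injective Q (by
        exact_mod_cast (add_right_cancel hab)))
    have hge := Finset.card_le_card hsub
    rw [hc] at hge
    have h2 := hNimg x hx
    have : ((N x).card : ℝ) ≤ 2 * ((Ns ((φ x).val : ℤ)).card : ℝ) := by
      exact_mod_cast (show (N x).card ≤ 2 * (Ns ((φ x).val : ℤ)).card by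
        change _ ≤ 2 * ((N x).image φ).card at h2; omega)
    linarith [hRle x (hGX hx)]
  have hmem : ∀ z ∈ Gs, ∀ n ∈ Ns z, z - n ∈ A₁ ∧ z - 2 * n ∈ A₂ ∧ z - 3 * n ∈ A₃ := by
    intro z _ n hn
    obtain ⟨x, hxf, hnx⟩ := Finset.mem_biUnion.1 hn
    clear hn
    obtain ⟨hx, rfl⟩ := Finset.mem_filter.1 hxf
    obtain ⟨v, hv, rfl⟩ := Finset.mem_image.1 hnx
    obtain ⟨w, hw, rfl⟩ := Finset.mem_image.1 hv
    have hxv : ((φ x).val : ℤ) < Q := by exact_mod_cast ZMod.val_lt (φ x)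
    have hwv : ((φ w).val : ℤ) < Q := by exact_mod_cast ZMod.val_lt (φ w)
    have hxv0 : (0 : ℤ) ≤ ((φ x).val : ℤ) := Int.natCast_nonneg _
    have hwv0 : (0 : ℤ) ≤ ((φ w).val : ℤ) := Int.natCast_nonneg _
    have hcast : ∀ i : ℤ, (((φ x).val : ℤ) - i * ((φ w).val + 10 * Q) : ℤ)
        = (hashMap h (x - i • w) : ZMod Q) := by
      intro i; rw [hashMap_zsmul_sub]; push_cast
      simp [φ]
    refine ⟨Finset.mem_filter.2 ⟨Finset.mem_Ioc.2 ⟨by linarith, by linarith⟩, ?_⟩,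
      Finset.mem_filter.2 ⟨Finset.mem_Ioc.2 ⟨by linarith, by linarith⟩, ?_⟩,
      Finset.mem_filter.2 ⟨Finset.mem_Ioc.2 ⟨by linarith, by linarith⟩, ?_⟩⟩
    · have := hcast 1; rw [one_mul] at this; rw [this]
      exact Finset.mem_image.2 ⟨_, hmemA 1 x (hGX hx) w hw, rfl⟩
    · rw [hcast 2]; exact Finset.mem_image.2 ⟨_, hmemA 2 x (hGX hx) w hw, rfl⟩
    · rw [hcast 3]; exact Finset.mem_image.2 ⟨_, hmemA 3 x (hGX hx) w hw, rfl⟩
  obtain ⟨g, hg, hlow⟩ :=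
    exists_large_THT Q m hQp.one_lt.le A₁ A₂ A₃ Gs Ns hsep hm hmem r hr
  have hup := hC _ _ _ g hg
  set W : ℝ → ℝ := fun H => 41 * Real.exp ((K : ℝ) * (H + ε)) with hW
  have hW0 : ∀ H, 0 ≤ W H := fun H => by simp only [hW]; positivity
  have hnorm : ∀ (i : ℤ) (lo hi : ℤ) (p : ℝ≥0∞), i ∈ ({1, 2, 3} : Finset ℤ) → lo ≤ 40 → 0 ≤ hi →
      eLpNorm (bumpsS (liftSet lo hi ((A i).image φ))) p volume
        ≤ ENNReal.ofReal (W (ent (proj i ∘ e)) ^ (1 / p.toReal)) := by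
    intro i lo hi p hi' hlo hhi
    have a1 := liftSet_card_le lo hi hlo hhi ((A i).image φ)
    have a2 : ((A i).image φ).card ≤ (A i).card := Finset.card_image_le
    have a3 : ((liftSet lo hi ((A i).image φ)).card : ℝ) ≤ 41 * ((A i).card : ℝ) := by
      exact_mod_cast (show (liftSet lo hi ((A i).image φ)).card ≤ 41 * (A i).card by omega)
    have hB : ((liftSet lo hi ((A i).image φ)).card : ℝ) ≤ W (ent (proj i ∘ e)) := by
      refine a3.trans ?_
      simp only [hW]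
      gcongr
      exact hAle i hi'
    have hs : 0 ≤ 1 / p.toReal := div_nonneg zero_le_one ENNReal.toReal_nonneg
    refine (eLpNorm_bumpsS_le _ p).trans ?_
    rw [← ENNReal.ofReal_rpow_of_nonneg (hW0 _) hs]
    gcongr
  have n1 := hnorm 1 11 8 p₁ (by simp) (by norm_num) (by norm_num)
  have n2 := hnorm 2 23 18 p₂ (by simp) (by norm_num) (by norm_num)
  have n3 := hnorm 3 34 28 p₃ (by simp) (by norm_num) (by norm_num)
  rw [← hH₁] at n1
  rw [← hH₂] at n2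
  rw [← hH₃] at n3
  have hmain : ((m : ℝ) / (256 * Q)) * ((Gs.card : ℝ) / 16) ^ (1 / r)
      ≤ (Cst : ℝ) * (W H₁ ^ s₁ * W H₂ ^ s₂ * W H₃ ^ s₃) := by
    have w1 := Real.rpow_nonneg (hW0 H₁) s₁
    have w2 := Real.rpow_nonneg (hW0 H₂) s₂
    have w3 := Real.rpow_nonneg (hW0 H₃) s₃
    rw [← ENNReal.ofReal_le_ofReal_iff (by positivity)]
    rw [ENNReal.ofReal_mul (by positivity), ← ENNReal.ofReal_rpow_of_nonneg (by positivity)
      (by positivity), ENNReal.ofReal_mul (NNReal.coe_nonneg _),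
      ENNReal.ofReal_mul (mul_nonneg w1 w2), ENNReal.ofReal_mul w1, ENNReal.ofReal_coe_nnreal]
    refine (hlow.trans hup).trans ?_
    rw [← mul_assoc, ← mul_assoc]
    gcongr
  -- asymptotics
  have hG : Real.exp ((K : ℝ) * (Hx - 3 * ε)) / 8 ≤ (Gs.card : ℝ) := by
    rw [hGscard]
    have : (X.card : ℝ) ≤ 2 * (G.card : ℝ) := by exact_mod_cast hGcard
    linarith
  have hQ0 : (0:ℝ) < Q := by exact_mod_cast hQp.pos
  have l1 : Real.exp ((K : ℝ) * (He - 2 * Hx - 4 * ε)) / (4096 * c0) ≤ (m : ℝ) / (256 * Q) := by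
    have e1 : Real.exp ((K : ℝ) * (He - 2 * Hx - 4 * ε)) * EQ
        = Real.exp ((K : ℝ) * (He - Hx - 2 * ε)) := by
      rw [hEQ, ← Real.exp_add]; ring_nf
    calc Real.exp ((K : ℝ) * (He - 2 * Hx - 4 * ε)) / (4096 * c0)
        = (R / 2) / (256 * (2 * c0 * EQ)) := by
          rw [hR, ← e1]; field_simp; ring
      _ ≤ (m : ℝ) / (256 * Q) := by gcongr
  have l2 : Real.exp ((K : ℝ) * (Hx - 3 * ε) / r) / (128 : ℝ) ^ (1 / r)
      ≤ ((Gs.card : ℝ) / 16) ^ (1 / r) := by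
    have : (Real.exp ((K : ℝ) * (Hx - 3 * ε)) / 128) ^ (1 / r)
        = Real.exp ((K : ℝ) * (Hx - 3 * ε) / r) / (128 : ℝ) ^ (1 / r) := by
      rw [Real.div_rpow (by positivity) (by norm_num), ← Real.exp_mul]; ring_nf
    rw [← this]
    exact Real.rpow_le_rpow (by positivity) (by linarith) (by positivity)
  set S := (K : ℝ) * (s₁ * H₁ + s₂ * H₂ + s₃ * H₃ + ε / r) with hS
  have hWr : W H₁ ^ s₁ * W H₂ ^ s₂ * W H₃ ^ s₃ = (41 : ℝ) ^ (1 / r) * Real.exp S := by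
    have e41 : (41 : ℝ) ^ (1 / r) = 41 ^ s₁ * 41 ^ s₂ * 41 ^ s₃ := by
      rw [← hsum, Real.rpow_add (by norm_num), Real.rpow_add (by norm_num)]
    have eS : S = (K : ℝ) * (H₁ + ε) * s₁ + (K : ℝ) * (H₂ + ε) * s₂ + (K : ℝ) * (H₃ + ε) * s₃ := by
      rw [hS, show ε / r = ε * (s₁ + s₂ + s₃) by rw [hsum]; ring]; ring
    rw [e41, eS, Real.exp_add, Real.exp_add]
    simp only [hW]
    rw [Real.mul_rpow (by norm_num) (Real.exp_nonneg _), Real.mul_rpow (by norm_num) (Real.exp_nonneg _),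
      Real.mul_rpow (by norm_num) (Real.exp_nonneg _), ← Real.exp_mul, ← Real.exp_mul, ← Real.exp_mul]
    ring
  have hfinal := (mul_le_mul l1 l2 (by positivity) (by positivity)).trans hmain
  rw [hWr, div_mul_div_comm, div_le_iff₀ (by positivity), ← Real.exp_add] at hfinal
  have e2 : (K : ℝ) * (He - 2 * Hx - 4 * ε) + (K : ℝ) * (Hx - 3 * ε) / r = (K : ℝ) * η + S := by
    rw [hη', hS, hgap, show (K : ℝ) * (Hx - 3 * ε) / r
      = (K : ℝ) * (Hx * (s₁ + s₂ + s₃) - 3 * (ε / r)) by rw [hsum]; ring]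
    ring
  rw [e2, Real.exp_add] at hfinal
  have : Real.exp ((K : ℝ) * η)
      ≤ (Cst : ℝ) * (41 : ℝ) ^ (1 / r) * (4096 * c0) * (128 : ℝ) ^ (1 / r) := by
    refine le_of_mul_le_mul_right ?_ (Real.exp_pos S)
    linarith
  linarith

end Vale.Agent.P141
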