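import Mathlib

namespace Vale.Agent.P141

open Finset

lemma sum_sum_eq_zero {ι : Type*} [Fintype ι] (L : ι → ℝ) (h0 : ∑ i, L i = 0) (K : ℕ) :
    ∑ w : Fin K → ι, ∑ j, L (w j) = 0 := by
  induction K with
  | zero => simp
  | succ K ih =>
    rw [← (Fin.consEquiv (fun _ : Fin (K + 1) => ι)).sum_comp]
    simp [Fintype.sum_prod_type, Fin.sum_univ_succ, Finset.sum_add_distrib, ih, ← Finset.mul_sum, h0]

lemma sum_sq_eq {ι : Type*} [Fintype ι] (L : ι → ℝ) (h0 : ∑ i, L i = 0) (K : ℕ) :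
    (Fintype.card ι : ℝ) * ∑ w : Fin K → ι, (∑ j, L (w j)) ^ 2
      = K * (Fintype.card ι : ℝ) ^ K * ∑ i, L i ^ 2 := by
  induction K with
  | zero => simp
  | succ K ih =>
    have e : ∑ w : Fin (K + 1) → ι, (∑ j, L (w j)) ^ 2
        = (Fintype.card ι : ℝ) ^ K * (∑ i, L i ^ 2)
          + (Fintype.card ι : ℝ) * ∑ w : Fin K → ι, (∑ j, L (w j)) ^ 2 := by
      rw [← (Fin.consEquiv (fun _ : Fin (K + 1) => ι)).sum_comp]
      simp only [Fin.consEquiv_apply, Fintype.sum_prod_type, Fin.sum_univ_succ, Fin.cons_zero,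
        Fin.cons_succ, add_sq, Finset.sum_add_distrib, Finset.sum_const, Finset.card_univ,
        nsmul_eq_mul, mul_assoc, ← Finset.mul_sum]
      simp [sum_sum_eq_zero L h0 K, Finset.mul_sum, Fintype.card_fun]
    rw [e, mul_add, ih, pow_succ]
    push_cast
    ring

/-- Chebyshev for the uniform product measure on `Fin K → ι`. -/
lemma atypical_card {ι : Type*} [Fintype ι] [Nonempty ι] (L : ι → ℝ) (K : ℕ) (ε : ℝ)
    (hε : 0 < ε) (H : ℝ) (hH : ∑ i, L i = Fintype.card ι * H) :
    ((univ.filter (fun w : Fin K → ι => ε * K < |(∑ j, L (w j)) - K * H|)).card : ℝ)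
        * (ε ^ 2 * K * Fintype.card ι)
      ≤ (Fintype.card ι : ℝ) ^ K * ∑ i, (L i - H) ^ 2 := by
  rcases Nat.eq_zero_or_pos K with rfl | hK
  · simp
    positivity
  set M : ℝ := (Fintype.card ι : ℝ)
  have hM : 0 < M := by simp only [M]; exact_mod_cast Fintype.card_pos
  have hKr : (0:ℝ) < K := by exact_mod_cast hK
  have h0 : ∑ i, (L i - H) = 0 := by simp [Finset.sum_sub_distrib, hH, M]
  have hs := sum_sq_eq (fun i => L i - H) h0 K
  have hb : ∀ w : Fin K → ι, ∑ j, (L (w j) - H) = (∑ j, L (w j)) - K * H := by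
    intro w; simp [Finset.sum_sub_distrib]
  simp only [hb] at hs
  set B := univ.filter (fun w : Fin K → ι => ε * K < |(∑ j, L (w j)) - K * H|)
  have h1 : (B.card : ℝ) * (ε * K) ^ 2 ≤ ∑ w : Fin K → ι, ((∑ j, L (w j)) - K * H) ^ 2 := by
    refine le_trans ?_ (Finset.sum_le_sum_of_subset_of_nonneg (Finset.subset_univ B)
      (fun _ _ _ => sq_nonneg _))
    rw [← nsmul_eq_mul]
    refine Finset.card_nsmul_le_sum _ _ _ (fun w hw => ?_)
    have h := (Finset.mem_filter.1 hw).2
    rw [← sq_abs ((∑ j, L (w j)) - K * H)]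
    exact pow_le_pow_left₀ (by positivity) h.le 2
  have h2 := mul_le_mul_of_nonneg_left h1 hM.le
  rw [hs] at h2
  have h3 : ((B.card : ℝ) * (ε ^ 2 * K * M)) * K ≤ (M ^ K * ∑ i, (L i - H) ^ 2) * K := by
    calc ((B.card : ℝ) * (ε ^ 2 * K * M)) * K = M * ((B.card : ℝ) * (ε * K) ^ 2) := by ring
      _ ≤ K * M ^ K * ∑ i, (L i - H) ^ 2 := h2
      _ = (M ^ K * ∑ i, (L i - H) ^ 2) * K := by ring
  exact le_of_mul_le_mul_right h3 hKr

variable {ι : Type*} [Fintype ι] {β : Type*} [DecidableEq β]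

/-- Number of points of `ι` in the fiber of `π`. -/
def cnt (π : ι → β) (z : β) : ℕ := (univ.filter (fun i => π i = z)).card

/-- Log-likelihood `log (M / cnt)`. -/
noncomputable def lik (π : ι → β) (i : ι) : ℝ :=
  Real.log (Fintype.card ι) - Real.log (cnt π (π i))

/-- Entropy of the pushforward of the uniform measure. -/
noncomputable def ent (π : ι → β) : ℝ := (∑ i, lik π i) / Fintype.card ι

lemma cnt_pos (π : ι → β) (i : ι) : 0 < cnt π (π i) :=
  Finset.card_pos.2 ⟨i, by simp⟩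

lemma fiber_card [DecidableEq ι] [Nonempty ι] (π : ι → β) (K : ℕ) (w : Fin K → ι) :
    (((univ : Finset (Fin K → ι)).filter (fun v => (fun j => π (v j)) = (fun j => π (w j)))).card : ℝ)
      = (Fintype.card ι : ℝ) ^ K * Real.exp (-∑ j, lik π (w j)) := by
  have e : (univ : Finset (Fin K → ι)).filter (fun v => (fun j => π (v j)) = (fun j => π (w j)))
      = Fintype.piFinset (fun j => univ.filter (fun i => π i = π (w j))) := by
    ext v; simp [funext_iff]
  rw [e, Fintype.card_piFinset, Nat.cast_prod, ← Finset.sum_neg_distrib, Real.exp_sum]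
  rw [show (Fintype.card ι : ℝ) ^ K = ∏ _j : Fin K, (Fintype.card ι : ℝ) by simp,
    ← Finset.prod_mul_distrib]
  refine Finset.prod_congr rfl (fun j _ => ?_)
  have hM : (0:ℝ) < Fintype.card ι := by exact_mod_cast Fintype.card_pos
  have hc : (0:ℝ) < cnt π (π (w j)) := by exact_mod_cast cnt_pos π (w j)
  rw [lik, neg_sub, Real.exp_sub, Real.exp_log hc, Real.exp_log hM, mul_div_cancel₀ _ hM.ne']
  rfl

lemma image_card_le [DecidableEq ι] [Nonempty ι] (π : ι → β) {K : ℕ} (G : Finset (Fin K → ι))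
    (u : ℝ) (hu : ∀ w ∈ G, ∑ j, lik π (w j) ≤ u) :
    ((G.image (fun w j => π (w j))).card : ℝ) ≤ Real.exp u := by
  classical
  set Z := G.image (fun w j => π (w j))
  set F := fun z : Fin K → β => (univ : Finset (Fin K → ι)).filter (fun v => (fun j => π (v j)) = z)
  have h1 : ∑ z ∈ Z, (F z).card ≤ (univ : Finset (Fin K → ι)).card := by
    rw [← Finset.card_biUnion (t := F)]
    · exact Finset.card_le_univ _
    · intro a _ b _ hab
      refine Finset.disjoint_left.2 (fun v hv hv' => hab ?_)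
      exact ((Finset.mem_filter.1 hv).2).symm.trans (Finset.mem_filter.1 hv').2
  have hM : (0:ℝ) < (Fintype.card ι : ℝ) ^ K := by
    have : (0:ℝ) < Fintype.card ι := by exact_mod_cast Fintype.card_pos
    positivity
  have h2 : (Z.card : ℝ) * ((Fintype.card ι : ℝ) ^ K * Real.exp (-u))
      ≤ (Fintype.card ι : ℝ) ^ K := by
    calc (Z.card : ℝ) * ((Fintype.card ι : ℝ) ^ K * Real.exp (-u))
        ≤ ∑ z ∈ Z, ((F z).card : ℝ) := by
          rw [← nsmul_eq_mul]
          refine Finset.card_nsmul_le_sum _ _ _ (fun z hz => ?_)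
          obtain ⟨w, hw, rfl⟩ := Finset.mem_image.1 hz
          rw [fiber_card π K w]
          gcongr
          exact hu w hw
      _ ≤ _ := by
          simpa [Fintype.card_fun] using (show ((∑ z ∈ Z, (F z).card : ℕ) : ℝ)
            ≤ ((univ : Finset (Fin K → ι)).card : ℝ) by exact_mod_cast h1)
  have h3 : (Z.card : ℝ) * Real.exp (-u) ≤ 1 := by
    refine le_of_mul_le_mul_left ?_ hM
    linarith
  rw [Real.exp_neg, ← div_eq_mul_inv, div_le_one (Real.exp_pos u)] at h3
  exact h3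

lemma card_le_image [DecidableEq ι] [Nonempty ι] (π : ι → β) {K : ℕ} (G : Finset (Fin K → ι))
    (u : ℝ) (hu : ∀ w ∈ G, u ≤ ∑ j, lik π (w j)) :
    (G.card : ℝ) ≤ (G.image (fun w j => π (w j))).card
      * ((Fintype.card ι : ℝ) ^ K * Real.exp (-u)) := by
  classical
  rw [Finset.card_eq_sum_card_image (fun w j => π (w j)) G, Nat.cast_sum, ← nsmul_eq_mul]
  refine Finset.sum_le_card_nsmul _ _ _ (fun z hz => ?_)
  obtain ⟨w, hw, rfl⟩ := Finset.mem_image.1 hz
  refine le_trans ?_ (le_trans (le_of_eq (fiber_card π K w)) ?_)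
  · exact_mod_cast Finset.card_le_card (fun v hv =>
      Finset.mem_filter.2 ⟨Finset.mem_univ v, (Finset.mem_filter.1 hv).2⟩)
  · gcongr
    exact hu w hw

/-- Inside the fiber of a coarse projection, few values of a finer projection are typical. -/
lemma sub_fiber_card_le [DecidableEq ι] [Nonempty ι] {γ : Type*} [DecidableEq γ]
    (π : ι → β) (g : β → γ) {K : ℕ} (G : Finset (Fin K → ι)) (u l : ℝ)
    (hu : ∀ w ∈ G, ∑ j, lik π (w j) ≤ u) (hl : ∀ w ∈ G, l ≤ ∑ j, lik (g ∘ π) (w j))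
    (x : Fin K → γ) :
    (((G.image (fun w j => π (w j))).filter (fun z => (fun j => g (z j)) = x)).card : ℝ)
      ≤ Real.exp (u - l) := by
  classical
  set Z := (G.image (fun w j => π (w j))).filter (fun z => (fun j => g (z j)) = x)
  rcases Z.eq_empty_or_nonempty with hZ | ⟨z0, hz0⟩
  · rw [hZ]; simp [Real.exp_nonneg]
  obtain ⟨hz0, hx⟩ := Finset.mem_filter.1 hz0
  obtain ⟨w0, hw0, rfl⟩ := Finset.mem_image.1 hz0
  set F := fun z : Fin K → β => (univ : Finset (Fin K → ι)).filter (fun v => (fun j => π (v j)) = z)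
  set Fx := (univ : Finset (Fin K → ι)).filter
    (fun v => (fun j => (g ∘ π) (v j)) = (fun j => (g ∘ π) (w0 j)))
  have h1 : ∑ z ∈ Z, (F z).card ≤ Fx.card := by
    rw [← Finset.card_biUnion (t := F)]
    · refine Finset.card_le_card (fun v hv => ?_)
      obtain ⟨z, hz, hv⟩ := Finset.mem_biUnion.1 hv
      refine Finset.mem_filter.2 ⟨Finset.mem_univ v, ?_⟩
      simp only [Function.comp_apply]
      rw [hx, ← (Finset.mem_filter.1 hz).2]
      funext j
      rw [← congrFun (Finset.mem_filter.1 hv).2 j]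
    · intro a _ b _ hab
      refine Finset.disjoint_left.2 (fun v hv hv' => hab ?_)
      exact ((Finset.mem_filter.1 hv).2).symm.trans (Finset.mem_filter.1 hv').2
  have hM : (0:ℝ) < (Fintype.card ι : ℝ) ^ K := by
    have : (0:ℝ) < Fintype.card ι := by exact_mod_cast Fintype.card_pos
    positivity
  have h2 : (Z.card : ℝ) * ((Fintype.card ι : ℝ) ^ K * Real.exp (-u))
      ≤ (Fintype.card ι : ℝ) ^ K * Real.exp (-l) := by
    calc (Z.card : ℝ) * ((Fintype.card ι : ℝ) ^ K * Real.exp (-u))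
        ≤ ∑ z ∈ Z, ((F z).card : ℝ) := by
          rw [← nsmul_eq_mul]
          refine Finset.card_nsmul_le_sum _ _ _ (fun z hz => ?_)
          obtain ⟨w, hw, rfl⟩ := Finset.mem_image.1 (Finset.mem_filter.1 hz).1
          rw [fiber_card π K w]
          gcongr
          exact hu w hw
      _ ≤ (Fx.card : ℝ) := by exact_mod_cast h1
      _ ≤ _ := by
          rw [fiber_card (g ∘ π) K w0]
          gcongr
          exact hl w0 hw0
  have h3 : (Z.card : ℝ) * Real.exp (-u) ≤ Real.exp (-l) := by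
    refine le_of_mul_le_mul_left ?_ hM
    linarith
  rw [Real.exp_neg, ← div_eq_mul_inv, div_le_iff₀ (Real.exp_pos u), ← Real.exp_add] at h3
  rwa [show u - l = -l + u by ring]

end Vale.Agent.P141
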